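import Vale.Agent.P092.H464.P.Whit

/-!
P092, TEAM P, block [P-KEY] (helper464): labels whose cells are small for the Carnot-Caratheodory
distance `max (|x ∧ y|) (|ω(x, y)|^(1/2))` of the points of a symplectic space, for any field with
`Cells`, and the Whitney decomposition for them.
-/

set_option linter.all false

namespace Vale.Agent.P092.H464.PW

open Finset
open Vale.Agent.P092.H464 (Pv)
open Vale.Agent.P092.H589.K2 (Cells code Nrm code_count code_count_ball code_small code_nest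
  measurable_code)
open Vale.Agent.P092.H820 (wd)

section om

variable {𝕜 : Type} [NormedField 𝕜] [MeasurableSpace 𝕜] {ι : Type} [Fintype ι]

/-- a bounded alternating form -/
structure Om (om : (ι → 𝕜) → (ι → 𝕜) → 𝕜) (C₀ : ℝ) : Prop where
  one : 1 ≤ C₀
  add : ∀ x y z, om (x + y) z = om x z + om y z
  smul : ∀ (c : 𝕜) x z, om (c • x) z = c * om x z
  anti : ∀ x y, om x y = - om y x
  self : ∀ x, om x x = 0
  le : ∀ x y, ‖om x y‖ ≤ C₀ * ‖x‖ * ‖y‖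
  meas : ∀ w, Measurable fun x => om x w

namespace Om

variable {om : (ι → 𝕜) → (ι → 𝕜) → 𝕜} {C₀ : ℝ} (h : Om om C₀)
include h

lemma sub (x y z : ι → 𝕜) : om (x - y) z = om x z - om y z := by
  have e : x = (x - y) + y := by abel
  have := h.add (x - y) y z
  rw [← e] at this
  rw [this]; ring

lemma add' (x y z : ι → 𝕜) : om z (x + y) = om z x + om z y := by
  rw [h.anti z, h.add, h.anti z x, h.anti z y]; ring

lemma sub' (x y z : ι → 𝕜) : om z (x - y) = om z x - om z y := by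
  rw [h.anti z, h.sub, h.anti z x, h.anti z y]; ring

lemma smul' (c : 𝕜) (x z : ι → 𝕜) : om z (c • x) = c * om z x := by
  rw [h.anti z, h.smul, h.anti z x]; ring

lemma le' {x y : ι → 𝕜} {a b : ℝ} (hx : ‖x‖ ≤ a) (hy : ‖y‖ ≤ b) : ‖om x y‖ ≤ C₀ * a * b := by
  have h0 := h.one
  have ha : 0 ≤ a := (norm_nonneg _).trans hx
  calc ‖om x y‖ ≤ C₀ * ‖x‖ * ‖y‖ := h.le x y
    _ ≤ C₀ * a * b := by gcongr

end Om

/-- coordinates of a normalised vector with respect to another one -/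
lemma dec {x η : ι → 𝕜} {b : ι} (hb : η b = 1) :
    ‖x - x b • η‖ ≤ ‖wd x η‖ := by
  refine (pi_norm_le_iff_of_nonneg (norm_nonneg _)).2 fun i => ?_
  have e : (x - x b • η) i = wd x η (i, b) := by
    simp only [wd, Pi.sub_apply, Pi.smul_apply, smul_eq_mul, hb]; ring
  rw [e]
  exact norm_le_pi_norm _ _

lemma wd_le (x η : ι → 𝕜) : ‖wd x η‖ ≤ 2 * (‖x‖ * ‖η‖) := by
  refine (pi_norm_le_iff_of_nonneg (by positivity)).2 fun p => ?_
  simp only [wd]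
  refine (norm_sub_le _ _).trans ?_
  rw [norm_mul, norm_mul]
  have h1 : ‖x p.1‖ * ‖η p.2‖ ≤ ‖x‖ * ‖η‖ :=
    mul_le_mul (norm_le_pi_norm _ _) (norm_le_pi_norm _ _) (norm_nonneg _) (norm_nonneg _)
  have h2 : ‖x p.2‖ * ‖η p.1‖ ≤ ‖x‖ * ‖η‖ :=
    mul_le_mul (norm_le_pi_norm _ _) (norm_le_pi_norm _ _) (norm_nonneg _) (norm_nonneg _)
  linarith

lemma wd_sub (x y η : ι → 𝕜) : wd (x - y) η = wd x η - wd y η := by
  funext p; simp only [wd, Pi.sub_apply]; ring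

lemma nrm_one {v : ι → 𝕜} (h : Nrm v) : ‖v‖ = 1 := by
  obtain ⟨h1, a, ha⟩ := h
  refine le_antisymm h1 ?_
  have := norm_le_pi_norm v a
  rwa [ha, norm_one] at this

variable {om : (ι → 𝕜) → (ι → 𝕜) → 𝕜} {C₀ : ℝ}

/-- two points close to the third one -/
lemma om_two (h : Om om C₀) {x y η : ι → 𝕜} {b : ι} (hb : η b = 1) (hx : ‖x‖ ≤ 1) (hy : ‖y‖ ≤ 1)
    {a' b' ρ : ℝ} (ha : 0 ≤ a') (hρ : 0 ≤ ρ) (h1 : ‖wd x η‖ ≤ a' * ρ) (h2 : ‖wd y η‖ ≤ a' * ρ)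
    (h3 : ‖om x η‖ ≤ b' * ρ ^ 2) (h4 : ‖om y η‖ ≤ b' * ρ ^ 2) :
    ‖om x y‖ ≤ (2 * b' + C₀ * a' ^ 2) * ρ ^ 2 := by
  set e := x - x b • η with he
  set f := y - y b • η with hf
  have e1 : ‖e‖ ≤ a' * ρ := (dec hb).trans h1
  have f1 : ‖f‖ ≤ a' * ρ := (dec hb).trans h2
  have hxb : ‖x b‖ ≤ 1 := (norm_le_pi_norm x b).trans hx
  have hyb : ‖y b‖ ≤ 1 := (norm_le_pi_norm y b).trans hy
  have key : om x y = y b * om x η - x b * om y η + om e f := by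
    have c1 : om x y = om x (y b • η + f) := by rw [hf]; congr 1; abel
    have c2 : om x f = om (x b • η + e) f := by rw [he]; congr 1; abel
    have c3 : om η f = - om y η := by
      rw [hf, h.sub', h.smul', h.self, h.anti η y]; ring
    rw [c1, h.add', h.smul', c2, h.add, h.smul, c3]; ring
  rw [key]
  have k1 : ‖y b * om x η‖ ≤ b' * ρ ^ 2 := by
    rw [norm_mul]
    calc ‖y b‖ * ‖om x η‖ ≤ 1 * (b' * ρ ^ 2) :=
          mul_le_mul hyb h3 (norm_nonneg _) zero_le_one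
      _ = _ := one_mul _
  have k2 : ‖x b * om y η‖ ≤ b' * ρ ^ 2 := by
    rw [norm_mul]
    calc ‖x b‖ * ‖om y η‖ ≤ 1 * (b' * ρ ^ 2) :=
          mul_le_mul hxb h4 (norm_nonneg _) zero_le_one
      _ = _ := one_mul _
  have k3 : ‖om e f‖ ≤ C₀ * (a' * ρ) * (a' * ρ) := h.le' e1 f1
  calc _ ≤ ‖y b * om x η - x b * om y η‖ + ‖om e f‖ := norm_add_le _ _
    _ ≤ (‖y b * om x η‖ + ‖x b * om y η‖) + ‖om e f‖ := by gcongr; exact norm_sub_le _ _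
    _ ≤ _ := by nlinarith

/-- the constant of `om_diff` -/
def c3 (C₀ C₁ a c₂ : ℝ) : ℝ := 2 * C₁ * (c₂ + C₀ * a) + 8 * C₀ * C₁ * a ^ 2

/-- change of `ω(·, η)` in a cell -/
lemma om_diff (h : Om om C₀) {x x' η : ι → 𝕜} {b : ι} (hb : η b = 1) {C₁ : ℝ} (hC₁ : 1 ≤ C₁)
    (hη : ‖η‖ ≤ C₁) (hx : ‖x‖ = 1) (hx' : ‖x'‖ = 1) {a c₂ ρ : ℝ} (ha : 1 ≤ a) (hρ : 0 ≤ ρ)
    (hc₂ : 0 ≤ c₂) (h1 : ‖x - x'‖ ≤ ρ) (h2 : ‖om x x'‖ ≤ c₂ * ρ ^ 2) (h3 : ‖wd x' η‖ ≤ a * ρ) :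
    ‖om (x - x') η‖ ≤ c3 C₀ C₁ a c₂ * ρ ^ 2 := by
  have h0 := h.one
  set e := x' - x' b • η with he
  have e1 : ‖e‖ ≤ a * ρ := (dec hb).trans h3
  by_cases hr : a * ρ ≤ 1 / 2
  · have k1 : ‖x'‖ ≤ ‖x' b‖ * C₁ + a * ρ := by
      have : x' = x' b • η + e := by rw [he]; abel
      calc ‖x'‖ = ‖x' b • η + e‖ := by rw [← this]
        _ ≤ ‖x' b • η‖ + ‖e‖ := norm_add_le _ _
        _ ≤ ‖x' b‖ * C₁ + a * ρ := by
            rw [norm_smul]
            gcongr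
    have k2 : 1 ≤ 2 * C₁ * ‖x' b‖ := by rw [hx'] at k1; nlinarith
    have k3 : x' b * om (x - x') η = om x x' - om (x - x') e := by
      have c1 : om (x - x') x' = om (x - x') (x' b • η + e) := by rw [he]; congr 1; abel
      have c2 : om (x - x') x' = om x x' := by rw [h.sub, h.self, sub_zero]
      rw [h.add', h.smul', c2] at c1
      linear_combination c1.symm
    have k4 : ‖x' b‖ * ‖om (x - x') η‖ ≤ (c₂ + C₀ * a) * ρ ^ 2 := by
      rw [← norm_mul, k3]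
      refine (norm_sub_le _ _).trans ?_
      have := h.le' h1 e1
      nlinarith
    have k5 : 0 ≤ ‖om (x - x') η‖ := norm_nonneg _
    have k6 : 0 ≤ 8 * C₀ * C₁ * a ^ 2 * ρ ^ 2 := by positivity
    calc ‖om (x - x') η‖ = 1 * ‖om (x - x') η‖ := (one_mul _).symm
      _ ≤ (2 * C₁ * ‖x' b‖) * ‖om (x - x') η‖ := by gcongr
      _ = 2 * C₁ * (‖x' b‖ * ‖om (x - x') η‖) := by ring
      _ ≤ 2 * C₁ * ((c₂ + C₀ * a) * ρ ^ 2) := by gcongr
      _ ≤ _ := by rw [c3]; nlinarith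
  · push Not at hr
    have k1 : ‖x - x'‖ ≤ 2 := (norm_sub_le _ _).trans (by rw [hx, hx']; norm_num)
    have k2 := h.le' k1 hη
    have k3 : 1 ≤ (2 * (a * ρ)) ^ 2 := by nlinarith
    have k4 : 0 ≤ 2 * C₁ * (c₂ + C₀ * a) * ρ ^ 2 := by positivity
    calc ‖om (x - x') η‖ ≤ C₀ * 2 * C₁ * 1 := by linarith
      _ ≤ C₀ * 2 * C₁ * (2 * (a * ρ)) ^ 2 := by gcongr
      _ ≤ _ := by rw [c3]; nlinarith

end om

section lab

variable {𝕜 : Type} [NormedField 𝕜] [MeasurableSpace 𝕜] (cl : Cells 𝕜) {ι : Type} [Fintype ι]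
  (om : (ι → 𝕜) → (ι → 𝕜) → 𝕜) {X : Type} (s : X → ι → 𝕜)

open Classical in
/-- a point of the cell -/
noncomputable def rep (m : ℕ) (c : ι → cl.T) : ι → 𝕜 :=
  if h : ∃ x, code cl m (s x) = c then s h.choose else 0

/-- the label: the code, and the cell of level `2 m` of `ω(x, w)`, `w` a fixed point of the cell -/
noncomputable def lbc (m : ℕ) (x : X) : (ι → cl.T) × cl.T :=
  (code cl m (s x), cl.lab (2 * m) (om (s x) (rep cl s m (code cl m (s x)))))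

variable {cl om s}

lemma rep_spec (m : ℕ) (x : X) : ∃ x', code cl m (s x') = code cl m (s x) ∧
    rep cl s m (code cl m (s x)) = s x' := by
  have h : ∃ x', code cl m (s x') = code cl m (s x) := ⟨x, rfl⟩
  exact ⟨h.choose, h.choose_spec, by rw [rep, dif_pos h]⟩

lemma half_sq (m : ℕ) : ((1 : ℝ) / 2) ^ (2 * m) = ((1 / 2) ^ m) ^ 2 := by
  rw [mul_comm, pow_mul]

variable {C₀ : ℝ} (h : Om om C₀)
include h

lemma lbc_small {m : ℕ} {x x' : X} (he : lbc cl om s m x = lbc cl om s m x') :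
    ‖s x - s x'‖ ≤ (1 / 2) ^ m ∧ ‖om (s x) (s x')‖ ≤ (1 + C₀) * ((1 / 2) ^ m) ^ 2 := by
  have e1 : code cl m (s x) = code cl m (s x') := congrArg Prod.fst he
  have e2 := congrArg Prod.snd he
  simp only [lbc] at e2
  rw [e1] at e2
  obtain ⟨x₀, h1, h2⟩ := rep_spec (cl := cl) (s := s) m x'
  rw [h2] at e2
  have k1 := code_small e1
  have k2 := cl.small _ _ _ e2
  have k3 := code_small (h1.symm)
  rw [half_sq] at k2
  have key : om (s x) (s x') = (om (s x) (s x₀) - om (s x') (s x₀)) +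
      om (s x - s x') (s x' - s x₀) := by
    rw [h.sub', h.sub, h.sub, h.self (s x')]; ring
  refine ⟨k1, ?_⟩
  rw [key]
  have k4 := h.le' k1 k3
  refine (norm_add_le _ _).trans ?_
  nlinarith

lemma lbc_fin (hn : ∀ x, Nrm (s x)) (m : ℕ) :
    ∃ F : Finset ((ι → cl.T) × cl.T), ∀ x, lbc cl om s m x ∈ F := by
  classical
  obtain ⟨M, hM⟩ := code_count_ball (c := cl) (ι := ι) (2 ^ m)
  obtain ⟨F₁, _, hF₁⟩ := hM m 0
  obtain ⟨M', hM'⟩ := cl.count (C₀ * 2 ^ (2 * m))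
  obtain ⟨F₂, _, hF₂⟩ := hM' (2 * m) 0
  refine ⟨F₁ ×ˢ F₂, fun x => mem_product.2 ⟨hF₁ _ ?_, hF₂ _ ?_⟩⟩
  · rw [sub_zero, ← mul_pow]
    norm_num
    exact (hn x).1
  · obtain ⟨x₀, h1, h2⟩ := rep_spec (cl := cl) (s := s) m x
    rw [h2, sub_zero, mul_assoc, ← mul_pow]
    norm_num
    have := h.le' (hn x).1 (hn x₀).1
    linarith

lemma lbc_meas [MeasurableSpace X] (hs : Measurable s) (m : ℕ) (t : (ι → cl.T) × cl.T) :
    MeasurableSet {x | lbc cl om s m x = t} := by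
  have e : {x | lbc cl om s m x = t} = {x | code cl m (s x) = t.1} ∩
      {x | cl.lab (2 * m) (om (s x) (rep cl s m t.1)) = t.2} := by
    ext x
    constructor
    · intro hx
      have h1 : code cl m (s x) = t.1 := congrArg Prod.fst hx
      have h2 := congrArg Prod.snd hx
      simp only [lbc] at h2
      rw [h1] at h2
      exact ⟨h1, h2⟩
    · rintro ⟨h1, h2⟩
      refine Prod.ext h1 ?_
      simp only [lbc]
      rw [(h1 : code cl m (s x) = t.1)]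
      exact h2
  rw [e]
  exact (measurable_code hs m t.1).inter (((h.meas _).comp hs) (cl.meas _ _))

/-- number of labels close to a point -/
lemma lbc_count (C₁ a' b' : ℝ) (ha : 0 ≤ a') : ∃ M : ℕ, ∀ {X : Type} (s : X → ι → 𝕜),
    (∀ x, Nrm (s x)) → ∀ (m : ℕ) (η : ι → 𝕜), ‖η‖ ≤ C₁ → (∃ b, η b = 1) →
    ∃ F : Finset ((ι → cl.T) × cl.T), F.card ≤ M ∧ ∀ x : X, ‖wd (s x) η‖ ≤ a' * (1 / 2) ^ m →
      ‖om (s x) η‖ ≤ b' * ((1 / 2) ^ m) ^ 2 → lbc cl om s m x ∈ F := by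
  classical
  obtain ⟨M₁, hM₁⟩ := code_count (c := cl) (ι := ι) a' C₁
  obtain ⟨M₂, hM₂⟩ := cl.count (2 * b' + C₀ * a' ^ 2 + C₀)
  refine ⟨M₁ * M₂, fun {X} s hn m η hη hb => ?_⟩
  obtain ⟨F₁, hc₁, hF₁⟩ := hM₁ m η hη hb
  obtain ⟨b, hb⟩ := hb
  have hex : ∀ c : ι → cl.T, ∃ F : Finset cl.T, F.card ≤ M₂ ∧ ∀ x : X, code cl m (s x) = c →
      ‖wd (s x) η‖ ≤ a' * (1 / 2) ^ m → ‖om (s x) η‖ ≤ b' * ((1 / 2) ^ m) ^ 2 →
      cl.lab (2 * m) (om (s x) (rep cl s m c)) ∈ F := by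
    intro c
    by_cases hc : ∃ x : X, code cl m (s x) = c ∧ ‖wd (s x) η‖ ≤ a' * (1 / 2) ^ m ∧
      ‖om (s x) η‖ ≤ b' * ((1 / 2) ^ m) ^ 2
    · obtain ⟨x₁, g1, g2, g3⟩ := hc
      obtain ⟨F, hF, hF'⟩ := hM₂ (2 * m) (om (s x₁) (rep cl s m c))
      refine ⟨F, hF, fun x k1 k2 k3 => hF' _ ?_⟩
      obtain ⟨x₀, l1, l2⟩ := rep_spec (cl := cl) (s := s) m x₁
      rw [g1] at l1 l2
      have m1 : ‖s x - s x₁‖ ≤ (1 / 2) ^ m := code_small (k1.trans g1.symm)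
      have m2 : ‖s x₀ - s x₁‖ ≤ (1 / 2) ^ m := code_small (l1.trans g1.symm)
      have m3 := om_two h hb (hn x).1 (hn x₁).1 ha (by positivity) k2 g2 k3 g3
      have key : om (s x) (s x₀) - om (s x₁) (s x₀) = om (s x) (s x₁) +
          om (s x - s x₁) (s x₀ - s x₁) := by
        rw [h.sub', h.sub, h.sub, h.self (s x₁)]; ring
      rw [l2, key, half_sq]
      have m4 := h.le' m1 m2
      refine (norm_add_le _ _).trans ?_
      nlinarith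
    · exact ⟨∅, by simp, fun x k1 k2 k3 => absurd ⟨x, k1, k2, k3⟩ hc⟩
  choose G hG1 hG2 using hex
  refine ⟨F₁.biUnion fun c => {c} ×ˢ G c, ?_, fun x k2 k3 => ?_⟩
  · refine card_biUnion_le.trans ?_
    calc ∑ c ∈ F₁, (({c} : Finset (ι → cl.T)) ×ˢ G c).card ≤ ∑ _c ∈ F₁, M₂ := by
          refine sum_le_sum fun c _ => ?_
          rw [card_product, card_singleton, one_mul]
          exact hG1 c
      _ = F₁.card * M₂ := by rw [sum_const, smul_eq_mul]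
      _ ≤ _ := Nat.mul_le_mul_right _ hc₁
  · rw [mem_biUnion]
    refine ⟨code cl m (s x), hF₁ _ (hn x) (fun p q => ?_), ?_⟩
    · have e : η p * s x q - s x p * η q = wd (s x) η (q, p) := by simp only [wd]; ring
      rw [e]
      exact (norm_le_pi_norm _ _).trans k2
    · rw [mem_product]
      exact ⟨mem_singleton_self _, hG2 _ x rfl k2 k3⟩

end lab

section main

variable {K : Type} [NormedAddCommGroup K] [InnerProductSpace ℂ K] [CompleteSpace K]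
variable {𝕜 : Type} [NormedField 𝕜] [MeasurableSpace 𝕜] {ι : Type} [Fintype ι]

/-- **Whitney decomposition for the Carnot-Caratheodory distance.** -/
theorem ccwhit (cl : Cells 𝕜) {om : (ι → 𝕜) → (ι → 𝕜) → 𝕜} {C₀ : ℝ} (h : Om om C₀) (C₁ : ℝ)
    (hC₁ : 1 ≤ C₁) : ∃ (a b : ℝ) (M : ℕ), 1 ≤ a ∧ 1 ≤ b ∧
    ∀ {X κ : Type} [MeasurableSpace X] (s : X → ι → 𝕜), Measurable s → (∀ x, Nrm (s x)) →
    ∀ {Pz : Set X → (K →L[ℂ] K)}, Pv Pz → ∀ (J : ℕ) (S : Finset κ) (η : κ → ι → 𝕜),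
    (∀ k ∈ S, ‖η k‖ ≤ C₁ ∧ ∃ j, η k j = 1) → ∀ (T : κ → (K →L[ℂ] K)) (C : ℝ), 0 ≤ C →
    (∀ m < J, ∀ S' ⊆ S, S'.Nonempty → ∀ A : Set X, MeasurableSet A → A.Nonempty →
      (∀ k ∈ S', ∀ x ∈ A, ‖wd (s x) (η k)‖ ≤ 2 * a * (1 / 2) ^ m ∧
        ‖om (s x) (η k)‖ ≤ 2 * b * ((1 / 2) ^ m) ^ 2 ∧
        ¬ (‖wd (s x) (η k)‖ ≤ a * (1 / 2) ^ (m + 1) ∧
          ‖om (s x) (η k)‖ ≤ b * ((1 / 2) ^ (m + 1)) ^ 2)) →
      ∀ v, ∑ k ∈ S', ‖T k (Pz A v)‖ ^ 2 ≤ C ^ 2 * ‖Pz A v‖ ^ 2) →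
    (∀ S' ⊆ S, S'.Nonempty → ∀ A : Set X, MeasurableSet A → A.Nonempty →
      (∀ k ∈ S', ∀ x ∈ A, ‖wd (s x) (η k)‖ ≤ 2 * a * (1 / 2) ^ J ∧
        ‖om (s x) (η k)‖ ≤ 2 * b * ((1 / 2) ^ J) ^ 2) →
      ∀ v, ∑ k ∈ S', ‖T k (Pz A v)‖ ^ 2 ≤ C ^ 2 * ‖Pz A v‖ ^ 2) →
    ∀ v, ∑ k ∈ S, ‖T k v‖ ^ 2 ≤ (M * (J + 1) * C) ^ 2 * ‖v‖ ^ 2 := by
  classical
  have h0 := h.one
  set a : ℝ := 2 * C₁ with ha
  set c : ℝ := c3 C₀ C₁ a (1 + C₀) with hc
  have hc0 : 0 ≤ c := by rw [hc, c3, ha]; positivity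
  set b : ℝ := c + C₀ * C₁ with hb
  have hb1 : 1 ≤ b := by nlinarith
  have ha1 : 1 ≤ a := by linarith
  obtain ⟨M₁, hM₁⟩ := lbc_count (cl := cl) h C₁ (2 * a) (2 * b) (by linarith)
  obtain ⟨M₂, hM₂⟩ := lbc_count (cl := cl) h C₁ (4 * a) (8 * b) (by linarith)
  refine ⟨a, b, max M₁ M₂, ha1, hb1, ?_⟩
  intro X κ _ s hs hn Pz hPz J S η hη T C hC hun hlast v
  set Nr : κ → ℕ → X → Prop := fun k m x => ‖wd (s x) (η k)‖ ≤ a * (1 / 2) ^ m ∧
    ‖om (s x) (η k)‖ ≤ b * ((1 / 2) ^ m) ^ 2 with hNr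
  set R : κ → ℕ → X → Prop := fun k m x => ∃ x', lbc cl om s m x' = lbc cl om s m x ∧ Nr k m x'
    with hR
  have near : ∀ k ∈ S, ∀ m x, R k m x → ‖wd (s x) (η k)‖ ≤ 2 * a * (1 / 2) ^ m ∧
      ‖om (s x) (η k)‖ ≤ 2 * b * ((1 / 2) ^ m) ^ 2 := by
    intro k hk m x hx
    obtain ⟨x', h1, h2, h3⟩ := hx
    obtain ⟨h4, h5⟩ := lbc_small h h1.symm
    obtain ⟨hη1, j, hj⟩ := hη k hk
    have hp : (0 : ℝ) < (1 / 2) ^ m := by positivity
    have k1 : ‖wd (s x - s x') (η k)‖ ≤ a * (1 / 2) ^ m := by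
      refine (wd_le _ _).trans ?_
      calc 2 * (‖s x - s x'‖ * ‖η k‖) ≤ 2 * ((1 / 2) ^ m * C₁) := by gcongr
        _ = _ := by rw [ha]; ring
    have k2 := om_diff h hj hC₁ hη1 (nrm_one (hn x)) (nrm_one (hn x')) ha1 hp.le
      (by linarith : 0 ≤ 1 + C₀) h4 h5 h2
    constructor
    · have e : wd (s x) (η k) = wd (s x') (η k) + wd (s x - s x') (η k) := by
        rw [wd_sub]; abel
      rw [e]
      refine (norm_add_le _ _).trans ?_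
      linarith
    · have e : om (s x) (η k) = om (s x') (η k) + om (s x - s x') (η k) := by
        rw [h.sub]; ring
      rw [e]
      refine (norm_add_le _ _).trans ?_
      have : c ≤ b := by rw [hb]; nlinarith
      have : c * ((1 / 2) ^ m) ^ 2 ≤ b * ((1 / 2) ^ m) ^ 2 := by gcongr
      linarith
  have hmono' : ∀ k ∈ S, ∀ m x, R k (m + 1) x → Nr k m x := by
    intro k hk m x hx
    obtain ⟨h1, h2⟩ := near k hk (m + 1) x hx
    have hp : (0 : ℝ) < (1 / 2) ^ m := by positivity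
    have e : ((1 : ℝ) / 2) ^ (m + 1) = (1 / 2) ^ m * (1 / 2) := pow_succ _ _
    rw [e] at h1 h2
    constructor
    · refine h1.trans (le_of_eq ?_)
      ring
    · refine h2.trans ?_
      nlinarith [sq_nonneg ((1 / 2 : ℝ) ^ m)]
  refine whit hPz J (lbc cl om s) (lbc_fin h hn) (lbc_meas h hs) S R ?_ ?_ ?_ (max M₁ M₂) ?_ ?_
    T C hC ?_ ?_ v
  · rintro k _ m x x' hxx ⟨x₀, h1, h2⟩
    exact ⟨x₀, h1.trans hxx, h2⟩
  · intro k hk m x hx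
    exact ⟨x, rfl, hmono' k hk m x hx⟩
  · intro k hk x
    obtain ⟨hη1, _⟩ := hη k hk
    refine ⟨x, rfl, ?_, ?_⟩
    · refine (wd_le _ _).trans ?_
      rw [nrm_one (hn x), pow_zero, mul_one, one_mul, ha]
      linarith
    · have := h.le' (nrm_one (hn x)).le hη1
      rw [pow_zero, one_pow, mul_one]
      linarith
  · intro k hk m
    obtain ⟨hη1, hj⟩ := hη k hk
    obtain ⟨F, hF1, hF2⟩ := hM₁ s hn m (η k) hη1 hj
    refine ⟨F, hF1.trans (le_max_left _ _), fun x hx => ?_⟩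
    obtain ⟨h1, h2⟩ := near k hk m x hx
    exact hF2 x h1 h2
  · intro k hk m
    obtain ⟨hη1, hj⟩ := hη k hk
    obtain ⟨F, hF1, hF2⟩ := hM₂ s hn (m + 1) (η k) hη1 hj
    refine ⟨F, hF1.trans (le_max_right _ _), fun x hx => ?_⟩
    obtain ⟨h1, h2⟩ := near k hk m x hx
    have e : ((1 : ℝ) / 2) ^ (m + 1) = (1 / 2) ^ m * (1 / 2) := pow_succ _ _
    refine hF2 x (h1.trans (le_of_eq ?_)) (h2.trans (le_of_eq ?_))
    · rw [e]; ring
    · rw [e]; ring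
  · intro m hm S' hS' hne A hA hAne hRA w
    refine hun m hm S' hS' hne A hA hAne (fun k hk x hx => ?_) w
    obtain ⟨h1, h2⟩ := hRA k hk x hx
    obtain ⟨h3, h4⟩ := near k (hS' hk) m x h1
    exact ⟨h3, h4, fun h5 => h2 ⟨x, rfl, h5⟩⟩
  · intro S' hS' hne A hA hAne hRA w
    exact hlast S' hS' hne A hA hAne (fun k hk x hx => near k (hS' hk) J x (hRA k hk x hx)) w

end main

end Vale.Agent.P092.H464.PW
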