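import Vale.Agent.P092.H589.K2w

/-!
P092, TEAM P, block [P-KEY] (helper464): the Whitney decomposition with respect to labels which
need not be nested.
-/

set_option linter.all false

namespace Vale.Agent.P092.H464.PW

open Finset
open Vale.Agent.P092.H464 (Pv)
open Vale.Agent.P092.H589.K2 (mink_sum)

variable {K : Type} [NormedAddCommGroup K] [InnerProductSpace ℂ K] [CompleteSpace K]

/-- one level: `𝒲 k` = at most `N` cells of one partition, with a bound on each cell -/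
theorem level {X κ ι : Type} [MeasurableSpace X] [DecidableEq ι] {Pz : Set X → (K →L[ℂ] K)}
    (hPz : Pv Pz) (S : Finset κ) (𝒯 : Finset ι) (cell : ι → Set X)
    (hcm : ∀ t ∈ 𝒯, MeasurableSet (cell t))
    (hcd : ∀ t ∈ 𝒯, ∀ t' ∈ 𝒯, t ≠ t' → Disjoint (cell t) (cell t'))
    (𝒲 : κ → Finset ι) (h𝒲 : ∀ k ∈ S, 𝒲 k ⊆ 𝒯) (N : ℕ) (hN : ∀ k ∈ S, (𝒲 k).card ≤ N)
    (T : κ → (K →L[ℂ] K)) (C : ℝ) (v : K)
    (hun : ∀ t ∈ 𝒯, ∑ k ∈ S.filter (fun k => t ∈ 𝒲 k), ‖T k (Pz (cell t) v)‖ ^ 2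
      ≤ C ^ 2 * ‖Pz (cell t) v‖ ^ 2) :
    ∑ k ∈ S, ‖∑ t ∈ 𝒲 k, T k (Pz (cell t) v)‖ ^ 2 ≤ N * (C ^ 2 * ‖v‖ ^ 2) := by
  classical
  have h1 : ∀ k ∈ S, ‖∑ t ∈ 𝒲 k, T k (Pz (cell t) v)‖ ^ 2
      ≤ N * ∑ t ∈ 𝒲 k, ‖T k (Pz (cell t) v)‖ ^ 2 := by
    intro k hk
    have h2 : ‖∑ t ∈ 𝒲 k, T k (Pz (cell t) v)‖ ≤ ∑ t ∈ 𝒲 k, ‖T k (Pz (cell t) v)‖ :=
      norm_sum_le _ _
    have h3 : (∑ t ∈ 𝒲 k, ‖T k (Pz (cell t) v)‖) ^ 2
        ≤ ((𝒲 k).card : ℝ) * ∑ t ∈ 𝒲 k, ‖T k (Pz (cell t) v)‖ ^ 2 := sq_sum_le_card_mul_sum_sq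
    have h4 : 0 ≤ ∑ t ∈ 𝒲 k, ‖T k (Pz (cell t) v)‖ ^ 2 := sum_nonneg fun _ _ => sq_nonneg _
    calc ‖∑ t ∈ 𝒲 k, T k (Pz (cell t) v)‖ ^ 2
        ≤ (∑ t ∈ 𝒲 k, ‖T k (Pz (cell t) v)‖) ^ 2 := pow_le_pow_left₀ (norm_nonneg _) h2 2
      _ ≤ ((𝒲 k).card : ℝ) * ∑ t ∈ 𝒲 k, ‖T k (Pz (cell t) v)‖ ^ 2 := h3
      _ ≤ _ := by
          refine mul_le_mul_of_nonneg_right ?_ h4
          exact_mod_cast hN k hk
  calc ∑ k ∈ S, ‖∑ t ∈ 𝒲 k, T k (Pz (cell t) v)‖ ^ 2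
      ≤ ∑ k ∈ S, N * ∑ t ∈ 𝒲 k, ‖T k (Pz (cell t) v)‖ ^ 2 := sum_le_sum h1
    _ = N * ∑ t ∈ 𝒯, ∑ k ∈ S.filter (fun k => t ∈ 𝒲 k), ‖T k (Pz (cell t) v)‖ ^ 2 := by
        rw [← mul_sum]
        congr 1
        have h5 : ∀ k ∈ S, ∑ t ∈ 𝒲 k, ‖T k (Pz (cell t) v)‖ ^ 2
            = ∑ t ∈ 𝒯, if t ∈ 𝒲 k then ‖T k (Pz (cell t) v)‖ ^ 2 else 0 := by
          intro k hk
          rw [← sum_filter]
          refine sum_congr ?_ fun _ _ => rfl
          ext t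
          simp only [mem_filter]
          exact ⟨fun h => ⟨h𝒲 k hk h, h⟩, fun h => h.2⟩
        rw [sum_congr rfl h5, sum_comm]
        exact sum_congr rfl fun t _ => by rw [sum_filter]
    _ ≤ N * ∑ t ∈ 𝒯, C ^ 2 * ‖Pz (cell t) v‖ ^ 2 := by
        refine mul_le_mul_of_nonneg_left (sum_le_sum hun) (Nat.cast_nonneg _)
    _ ≤ N * (C ^ 2 * ‖v‖ ^ 2) := by
        rw [← mul_sum]
        have := hPz.bessel 𝒯 cell hcm hcd v
        gcongr

/-- **Whitney decomposition.** `lb m` = labels of level `m` (not nested), `R k m` = neighbourhood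
of level `m` of `k`, a union of cells of level `m`. -/
theorem whit {X κ Λ : Type} [MeasurableSpace X] {Pz : Set X → (K →L[ℂ] K)} (hPz : Pv Pz)
    (J : ℕ) (lb : ℕ → X → Λ) (hfin : ∀ m, ∃ F : Finset Λ, ∀ x, lb m x ∈ F)
    (hmeas : ∀ m t, MeasurableSet {x | lb m x = t}) (S : Finset κ) (R : κ → ℕ → X → Prop)
    (hR : ∀ k ∈ S, ∀ m x x', lb m x = lb m x' → R k m x → R k m x')
    (hmono : ∀ k ∈ S, ∀ m x, R k (m + 1) x → R k m x) (h0 : ∀ k ∈ S, ∀ x, R k 0 x)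
    (M : ℕ) (hM : ∀ k ∈ S, ∀ m, ∃ F : Finset Λ, F.card ≤ M ∧ ∀ x, R k m x → lb m x ∈ F)
    (hM' : ∀ k ∈ S, ∀ m, ∃ F : Finset Λ, F.card ≤ M ∧ ∀ x, R k m x → lb (m + 1) x ∈ F)
    (T : κ → (K →L[ℂ] K)) (C : ℝ) (hC : 0 ≤ C)
    (hun : ∀ m < J, ∀ S' ⊆ S, S'.Nonempty → ∀ A : Set X, MeasurableSet A → A.Nonempty →
      (∀ k ∈ S', ∀ x ∈ A, R k m x ∧ ¬ R k (m + 1) x) → ∀ v,
      ∑ k ∈ S', ‖T k (Pz A v)‖ ^ 2 ≤ C ^ 2 * ‖Pz A v‖ ^ 2)
    (hlast : ∀ S' ⊆ S, S'.Nonempty → ∀ A : Set X, MeasurableSet A → A.Nonempty →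
      (∀ k ∈ S', ∀ x ∈ A, R k J x) → ∀ v,
      ∑ k ∈ S', ‖T k (Pz A v)‖ ^ 2 ≤ C ^ 2 * ‖Pz A v‖ ^ 2) (v : K) :
    ∑ k ∈ S, ‖T k v‖ ^ 2 ≤ (M * (J + 1) * C) ^ 2 * ‖v‖ ^ 2 := by
  classical
  choose F hF using hfin
  set cell : ℕ → Λ × Λ → Set X := fun m p => {x | lb m x = p.1} ∩ {x | lb (m + 1) x = p.2}
    with hcell
  have hcm : ∀ m p, MeasurableSet (cell m p) := fun m p => (hmeas m p.1).inter (hmeas (m + 1) p.2)
  have hcd : ∀ m p p', p ≠ p' → Disjoint (cell m p) (cell m p') := by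
    intro m p p' hpp
    refine Set.disjoint_left.2 fun x h1 h2 => hpp ?_
    exact Prod.ext ((h1.1 : lb m x = p.1).symm.trans h2.1)
      ((h1.2 : lb (m + 1) x = p.2).symm.trans h2.2)
  set D : κ → ℕ → X → Prop := fun k m x => R k m x ∧ (m < J → ¬ R k (m + 1) x) with hD
  have D_congr : ∀ k ∈ S, ∀ m p, ∀ x ∈ cell m p, ∀ x' ∈ cell m p, D k m x → D k m x' := by
    intro k hk m p x hx x' hx' h
    have e1 : lb m x = lb m x' := (hx.1 : lb m x = p.1).trans (hx'.1 : lb m x' = p.1).symm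
    have e2 : lb (m + 1) x = lb (m + 1) x' :=
      (hx.2 : lb (m + 1) x = p.2).trans (hx'.2 : lb (m + 1) x' = p.2).symm
    exact ⟨hR k hk m x x' e1 h.1, fun hm h' => h.2 hm (hR k hk (m + 1) x' x e2.symm h')⟩
  set 𝒯 : ℕ → Finset (Λ × Λ) := fun m => F m ×ˢ F (m + 1) with h𝒯
  set 𝒲 : κ → ℕ → Finset (Λ × Λ) := fun k m => (𝒯 m).filter fun p => ∃ x ∈ cell m p, D k m x
    with h𝒲
  have h𝒲c : ∀ k ∈ S, ∀ m, ∀ p ∈ 𝒲 k m, ∀ x ∈ cell m p, D k m x := by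
    intro k hk m p hp x hx
    obtain ⟨x', hx', h⟩ := (mem_filter.1 hp).2
    exact D_congr k hk m p x' hx' x hx h
  have hcard : ∀ k ∈ S, ∀ m, (𝒲 k m).card ≤ M * M := by
    intro k hk m
    obtain ⟨G, hG1, hG2⟩ := hM k hk m
    obtain ⟨G', hG1', hG2'⟩ := hM' k hk m
    refine (card_le_card (t := G ×ˢ G') fun p hp => ?_).trans ?_
    · obtain ⟨x, hx, h⟩ := (mem_filter.1 hp).2
      rw [mem_product]
      have e1 : lb m x = p.1 := hx.1
      have e2 : lb (m + 1) x = p.2 := hx.2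
      exact ⟨e1 ▸ hG2 x h.1, e2 ▸ hG2' x h.1⟩
    · rw [card_product]
      exact Nat.mul_le_mul hG1 hG1'
  -- every point is in exactly one `D k m`
  have hex : ∀ k ∈ S, ∀ x, ∃ m ∈ range (J + 1), D k m x := by
    intro k hk x
    by_cases hJ : R k J x
    · exact ⟨J, by simp, hJ, fun h => absurd h (lt_irrefl _)⟩
    · have h1 : ∃ m, ¬ R k m x := ⟨J, hJ⟩
      set m := Nat.find h1 with hm
      have h2 : ¬ R k m x := Nat.find_spec h1
      have h3 : m ≠ 0 := fun h => h2 (h ▸ h0 k hk x)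
      obtain ⟨m', hm'⟩ := Nat.exists_eq_succ_of_ne_zero h3
      have h4 : R k m' x := by
        by_contra h5
        exact Nat.find_min h1 (m := m') (by omega) h5
      have h6 : m ≤ J := Nat.find_min' h1 hJ
      refine ⟨m', by rw [mem_range]; omega, h4, fun _ => ?_⟩
      rw [← Nat.succ_eq_add_one, ← hm']
      exact h2
  have hdec : ∀ k ∈ S, ∀ a b x, a ≤ b → R k b x → R k a x := by
    intro k hk a b x hab
    induction b, hab using Nat.le_induction with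
    | base => exact id
    | succ n _ ih => exact fun h => ih (hmono k hk n x h)
  have huq : ∀ k ∈ S, ∀ m ∈ range (J + 1), ∀ m' ∈ range (J + 1), ∀ x, D k m x → D k m' x →
      m = m' := by
    have key : ∀ k ∈ S, ∀ m m' x, m < m' → m' ≤ J → D k m x → D k m' x → False := by
      intro k hk m m' x hlt hJ h h'
      exact h.2 (by omega) (hdec k hk (m + 1) m' x (by omega) h'.1)
    intro k hk m hm m' hm' x h h'
    rw [mem_range] at hm hm'
    rcases lt_trichotomy m m' with h1 | h1 | h1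
    · exact (key k hk m m' x h1 (by omega) h h').elim
    · exact h1
    · exact (key k hk m' m x h1 (by omega) h' h).elim
  have hu : ∀ k ∈ S, ∀ m, {x | D k m x} = ⋃ p ∈ 𝒲 k m, cell m p := by
    intro k hk m
    ext x
    simp only [Set.mem_iUnion, exists_prop]
    constructor
    · intro hx
      refine ⟨(lb m x, lb (m + 1) x), mem_filter.2 ⟨?_, x, ⟨rfl, rfl⟩, hx⟩, rfl, rfl⟩
      rw [h𝒯, mem_product]
      exact ⟨hF m x, hF (m + 1) x⟩
    · rintro ⟨p, hp, hx⟩; exact h𝒲c k hk m p hp x hx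
  have hPD : ∀ k ∈ S, ∀ m, Pz {x | D k m x} = ∑ p ∈ 𝒲 k m, Pz (cell m p) := by
    intro k hk m
    rw [hu k hk m]
    exact hPz.sum _ _ (fun p _ => hcm m p) fun p _ p' _ hpp => hcd m p p' hpp
  have hDm : ∀ k ∈ S, ∀ m, MeasurableSet {x | D k m x} := by
    intro k hk m
    rw [hu k hk m]
    exact Finset.measurableSet_biUnion _ fun p _ => hcm m p
  have hone : ∀ k ∈ S, v = ∑ m ∈ range (J + 1), ∑ p ∈ 𝒲 k m, Pz (cell m p) v := by
    intro k hk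
    have h2 : (Set.univ : Set X) = ⋃ m ∈ range (J + 1), {x | D k m x} := by
      ext x
      simp only [Set.mem_univ, Set.mem_iUnion, exists_prop, true_iff]
      exact hex k hk x
    have h3 : (1 : K →L[ℂ] K) = ∑ m ∈ range (J + 1), ∑ p ∈ 𝒲 k m, Pz (cell m p) := by
      rw [← hPz.univ, h2, hPz.sum _ _ (fun m _ => hDm k hk m) fun m hm m' hm' hmm =>
        Set.disjoint_left.2 fun x hx hx' => hmm (huq k hk m hm m' hm' x hx hx')]
      exact sum_congr rfl fun m _ => hPD k hk m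
    conv_lhs => rw [← one_apply_eq_self v (F := K →L[ℂ] K), h3]
    simp only [_root_.sum_apply]
  set x : ℕ → κ → K := fun m k => ∑ p ∈ 𝒲 k m, T k (Pz (cell m p) v) with hx
  have hsum : ∀ k ∈ S, T k v = ∑ m ∈ range (J + 1), x m k := by
    intro k hk
    conv_lhs => rw [hone k hk]
    simp only [map_sum, hx]
  have hlev : ∀ m ∈ range (J + 1), ∑ k ∈ S, ‖x m k‖ ^ 2 ≤ (M * C * ‖v‖) ^ 2 := by
    intro m hm
    have h1 := level hPz S (𝒯 m) (cell m) (fun p _ => hcm m p) (fun p _ p' _ h => hcd m p p' h)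
      (fun k => 𝒲 k m) (fun k _ => filter_subset _ _) (M * M) (fun k hk => hcard k hk m) T C v ?_
    · refine h1.trans (le_of_eq ?_)
      push_cast
      ring
    · intro p _
      rcases (S.filter fun k => p ∈ 𝒲 k m).eq_empty_or_nonempty with he | hne
      · rw [he, sum_empty]; positivity
      rcases (cell m p).eq_empty_or_nonempty with he' | hne'
      · rw [he', hPz.empty]; simp
      rcases Nat.lt_or_ge m J with hlt | hge
      · refine hun m hlt _ (filter_subset _ _) hne _ (hcm m p) hne' (fun k hk y hy => ?_) v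
        obtain ⟨hkS, hkp⟩ := mem_filter.1 hk
        have h2 := h𝒲c k hkS m p hkp y hy
        exact ⟨h2.1, h2.2 hlt⟩
      · have hmJ : m = J := by rw [mem_range] at hm; omega
        subst hmJ
        refine hlast _ (filter_subset _ _) hne _ (hcm m p) hne' (fun k hk y hy => ?_) v
        obtain ⟨hkS, hkp⟩ := mem_filter.1 hk
        exact (h𝒲c k hkS m p hkp y hy).1
  have h5 := mink_sum S (range (J + 1)) x (fun _ => M * C * ‖v‖) (fun _ _ => by positivity) hlev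
  rw [sum_congr rfl fun k hk => by rw [hsum k hk]]
  refine h5.trans (le_of_eq ?_)
  rw [sum_const, card_range, nsmul_eq_mul]
  push_cast
  ring

end Vale.Agent.P092.H464.PW
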