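import Vale.Agent.P092.H464.P.C2a
import Vale.Agent.P092.H99.P.Key
import Vale.Agent.P092.H914.Fin0

/-!
P092, TEAM P (helper464): `Count2Stmt` over every local field.
-/

set_option linter.all false

open scoped LinearAlgebra.Projectivization
open MeasureTheory

namespace Vale.Agent.P092.H464.PC

open Vale.Agent.P092.H914 (TD secStmt opfStmt td_dense exists_cells loc_or)

variable {k : Type} [NontriviallyNormedField k] [ProperSpace k] [MeasurableSpace k] [BorelSpace k]

/-- **COUNT_2** in the letters of `H99.P`, every local field -/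
theorem count2Stmt' (hk : (∃ τ : k →+* ℂ, ∀ x, ‖τ x‖ = ‖x‖) ∨ IsUltrametricDist k) :
    H99.P.Count2Stmt k := by
  obtain ⟨cls⟩ := exists_cells hk
  refine ⟨TD k (Fin 4), td_dense hk (Fin 4), ?_⟩
  intro Γ K _ _ _ q hud E P L M hEL hEM hPM R A h f hf hA
  exact count2 cls (secStmt k) opfStmt q hud E P L M hEL hEM hPM R A h f hf
    fun X hX X' hX' z hz hz' => hA X hX X' hX' z hz hz'

theorem count2Stmt (hk : H933.LocK k) : H99.P.Count2Stmt k := count2Stmt' (loc_or hk)

end Vale.Agent.P092.H464.PC
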