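import Mathlib

/-!
P092, TEAM P, block [P-KEY2] (helper464): the normal form of the near-2-wall elements:
`k *ᵥ x = c • (A *ᵥ dv 1 ϖ (bv V (x ∘ e)))`.
-/

set_option linter.all false

namespace Vale.Agent.P092.H464.PW

variable {𝕜 : Type*} [NormedField 𝕜] {α : Type*}

/-- the coordinates transversal to the plane `{x | x a = - V a · x}` -/
def fa (V : α → Fin 2 → 𝕜) (x : α ⊕ Fin 2 → 𝕜) (a : α) : 𝕜 :=
  x (Sum.inl a) + (V a 0 * x (Sum.inr 0) + V a 1 * x (Sum.inr 1))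

/-- `[[1, V], [0, 1]]` -/
def bv (V : α → Fin 2 → 𝕜) (x : α ⊕ Fin 2 → 𝕜) : α ⊕ Fin 2 → 𝕜 :=
  Sum.elim (fa V x) fun b => x (Sum.inr b)

/-- `diag(c, d)` -/
def dv (c d : 𝕜) (x : α ⊕ Fin 2 → 𝕜) : α ⊕ Fin 2 → 𝕜 :=
  Sum.elim (fun a => c * x (Sum.inl a)) fun b => d * x (Sum.inr b)

@[simp] lemma bv_inl (V : α → Fin 2 → 𝕜) (x : α ⊕ Fin 2 → 𝕜) (a : α) :
    bv V x (Sum.inl a) = fa V x a := rfl

@[simp] lemma bv_inr (V : α → Fin 2 → 𝕜) (x : α ⊕ Fin 2 → 𝕜) (b : Fin 2) :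
    bv V x (Sum.inr b) = x (Sum.inr b) := rfl

@[simp] lemma dv_inl (c d : 𝕜) (x : α ⊕ Fin 2 → 𝕜) (a : α) :
    dv c d x (Sum.inl a) = c * x (Sum.inl a) := rfl

@[simp] lemma dv_inr (c d : 𝕜) (x : α ⊕ Fin 2 → 𝕜) (b : Fin 2) :
    dv c d x (Sum.inr b) = d * x (Sum.inr b) := rfl

end Vale.Agent.P092.H464.PW
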