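import Vale.Agent.P092.H464.P.BDef
import Vale.Agent.P092.H464.P.CCLab
import Vale.Agent.P092.H589.K2y

/-!
P092, TEAM P, block [P-KEY2] (helper464): linear algebra of the near-2-wall elements: closeness of
two planes with a common near line, the insertion inequality.
-/

set_option linter.all false

namespace Vale.Agent.P092.H464.PW

open Finset Matrix
open Vale.Agent.P092.H589.K2 (Nrm mn mn_wd)
open Vale.Agent.P092.H820 (wd)
open Vale.Agent.P092.H835.PlF (w3 Alt alt_wd)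

section basic

variable {𝕜 : Type} [NormedField 𝕜] {α : Type} [Fintype α]

lemma le_fun {x : α ⊕ Fin 2 → 𝕜} {M : ℝ} (hM : 0 ≤ M) (h1 : ∀ a, ‖x (Sum.inl a)‖ ≤ M)
    (h2 : ∀ b, ‖x (Sum.inr b)‖ ≤ M) : ‖x‖ ≤ M :=
  (pi_norm_le_iff_of_nonneg hM).2 fun i => by
    cases i with
    | inl a => exact h1 a
    | inr b => exact h2 b

lemma two_le {a b x y : 𝕜} {C n : ℝ} (ha : ‖a‖ ≤ C) (hb : ‖b‖ ≤ C) (hx : ‖x‖ ≤ n)
    (hy : ‖y‖ ≤ n) : ‖a * x + b * y‖ ≤ 2 * C * n := by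
  have hC : 0 ≤ C := (norm_nonneg _).trans ha
  refine (norm_add_le _ _).trans ?_
  rw [norm_mul, norm_mul]
  have h1 := mul_le_mul ha hx (norm_nonneg _) hC
  have h2 := mul_le_mul hb hy (norm_nonneg _) hC
  linarith

variable {V V0 : α → Fin 2 → 𝕜} {C : ℝ}

lemma fa_le (hV : ∀ a b, ‖V a b‖ ≤ C) (x : α ⊕ Fin 2 → 𝕜) (a : α) :
    ‖fa V x a‖ ≤ (1 + 2 * C) * ‖x‖ := by
  have h1 := two_le (hV a 0) (hV a 1) (norm_le_pi_norm x (Sum.inr 0))
    (norm_le_pi_norm x (Sum.inr 1))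
  have h2 := norm_le_pi_norm x (Sum.inl a)
  refine (norm_add_le _ _).trans ?_
  linarith

lemma bv_le (hC : 0 ≤ C) (hV : ∀ a b, ‖V a b‖ ≤ C) (x : α ⊕ Fin 2 → 𝕜) :
    ‖bv V x‖ ≤ (1 + 2 * C) * ‖x‖ := by
  refine le_fun (by positivity) (fun a => fa_le hV x a) fun b => ?_
  have := norm_le_pi_norm x (Sum.inr b)
  have := norm_nonneg x
  simp only [bv_inr]
  nlinarith

lemma bv_neg (V : α → Fin 2 → 𝕜) (x : α ⊕ Fin 2 → 𝕜) : bv (-V) (bv V x) = x := by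
  funext i
  cases i with
  | inl a => simp only [bv_inl, fa, bv_inr, Pi.neg_apply]; ring
  | inr b => rfl

lemma neg_le (hV : ∀ a b, ‖V a b‖ ≤ C) : ∀ a b, ‖(-V) a b‖ ≤ C := fun a b => by
  rw [Pi.neg_apply, Pi.neg_apply, norm_neg]; exact hV a b

lemma le_bv (hC : 0 ≤ C) (hV : ∀ a b, ‖V a b‖ ≤ C) (x : α ⊕ Fin 2 → 𝕜) :
    ‖x‖ ≤ (1 + 2 * C) * ‖bv V x‖ := by
  conv_lhs => rw [← bv_neg V x]
  exact bv_le hC (neg_le hV) _

lemma dv_le {c d : 𝕜} {M : ℝ} (hc : ‖c‖ ≤ M) (hd : ‖d‖ ≤ M) (x : α ⊕ Fin 2 → 𝕜) :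
    ‖dv c d x‖ ≤ M * ‖x‖ := by
  have hM : 0 ≤ M := (norm_nonneg _).trans hc
  refine le_fun (by positivity) (fun a => ?_) fun b => ?_
  · rw [dv_inl, norm_mul]
    exact mul_le_mul hc (norm_le_pi_norm x _) (norm_nonneg _) hM
  · rw [dv_inr, norm_mul]
    exact mul_le_mul hd (norm_le_pi_norm x _) (norm_nonneg _) hM

lemma le_dv {c d : 𝕜} {m : ℝ} (hm : 0 < m) (hc : m ≤ ‖c‖) (hd : m ≤ ‖d‖)
    (x : α ⊕ Fin 2 → 𝕜) : m * ‖x‖ ≤ ‖dv c d x‖ := by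
  have h1 : ‖x‖ ≤ m⁻¹ * ‖dv c d x‖ := by
    refine le_fun (by positivity) (fun a => ?_) fun b => ?_
    · rw [le_inv_mul_iff₀ hm]
      calc m * ‖x (Sum.inl a)‖ ≤ ‖c‖ * ‖x (Sum.inl a)‖ := by gcongr
        _ = ‖dv c d x (Sum.inl a)‖ := by rw [dv_inl, norm_mul]
        _ ≤ _ := norm_le_pi_norm _ _
    · rw [le_inv_mul_iff₀ hm]
      calc m * ‖x (Sum.inr b)‖ ≤ ‖d‖ * ‖x (Sum.inr b)‖ := by gcongr
        _ = ‖dv c d x (Sum.inr b)‖ := by rw [dv_inr, norm_mul]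
        _ ≤ _ := norm_le_pi_norm _ _
  rwa [le_inv_mul_iff₀ hm] at h1

lemma mulVec_le {m n : Type} [Fintype m] [Fintype n] {A : Matrix m n 𝕜} (hC : 0 ≤ C)
    (hA : ∀ a b, ‖A a b‖ ≤ C) (v : n → 𝕜) : ‖A *ᵥ v‖ ≤ Fintype.card n * C * ‖v‖ := by
  refine (pi_norm_le_iff_of_nonneg (by positivity)).2 fun a => ?_
  rw [Matrix.mulVec, dotProduct]
  refine (norm_sum_le _ _).trans ?_
  calc ∑ b, ‖A a b * v b‖ ≤ ∑ _b : n, C * ‖v‖ := by
        refine sum_le_sum fun b _ => ?_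
        rw [norm_mul]
        exact mul_le_mul (hA a b) (norm_le_pi_norm v b) (norm_nonneg _) hC
    _ = _ := by rw [sum_const, card_univ, nsmul_eq_mul]; ring

/-! ### 2-vectors -/

/-- contraction of a 2-vector with the functional `fa V · a` -/
def cv (V : α → Fin 2 → 𝕜) (p : (α ⊕ Fin 2) × (α ⊕ Fin 2) → 𝕜) (a : α) (j : α ⊕ Fin 2) : 𝕜 :=
  p (Sum.inl a, j) + (V a 0 * p (Sum.inr 0, j) + V a 1 * p (Sum.inr 1, j))

lemma cv_wd (V : α → Fin 2 → 𝕜) (z x : α ⊕ Fin 2 → 𝕜) (a : α) (j : α ⊕ Fin 2) :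
    cv V (wd z x) a j = fa V z a * x j - z j * fa V x a := by
  simp only [cv, wd, fa]; ring

lemma cv_sub_smul (V : α → Fin 2 → 𝕜) (p q : (α ⊕ Fin 2) × (α ⊕ Fin 2) → 𝕜) (t : 𝕜) (a : α)
    (j : α ⊕ Fin 2) : cv V (fun Q => p Q - t * q Q) a j = cv V p a j - t * cv V q a j := by
  simp only [cv]; ring

lemma cv_sub (V : α → Fin 2 → 𝕜) (p q : (α ⊕ Fin 2) × (α ⊕ Fin 2) → 𝕜) (a : α)
    (j : α ⊕ Fin 2) : cv V (p - q) a j = cv V p a j - cv V q a j := by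
  simp only [cv, Pi.sub_apply]; ring

lemma cv_le (hV : ∀ a b, ‖V a b‖ ≤ C) {p : (α ⊕ Fin 2) × (α ⊕ Fin 2) → 𝕜} {n : ℝ}
    (hp : ∀ Q, ‖p Q‖ ≤ n) (a : α) (j : α ⊕ Fin 2) : ‖cv V p a j‖ ≤ (1 + 2 * C) * n := by
  have h1 := two_le (hV a 0) (hV a 1) (hp (Sum.inr 0, j)) (hp (Sum.inr 1, j))
  have h2 := hp (Sum.inl a, j)
  refine (norm_add_le _ _).trans ?_
  linarith

/-- an alternating 2-vector is controlled by `cv` and its last coordinate -/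
lemma p_le (hC : 0 ≤ C) (hV : ∀ a b, ‖V a b‖ ≤ C) {p : (α ⊕ Fin 2) × (α ⊕ Fin 2) → 𝕜}
    (hp : Alt p) {δ : ℝ} (hδ : 0 ≤ δ) (h : ∀ a j, ‖cv V p a j‖ ≤ δ) (Q) :
    ‖p Q‖ ≤ (1 + 2 * C) ^ 2 * (δ + ‖p (Sum.inr 0, Sum.inr 1)‖) := by
  set t := ‖p (Sum.inr 0, Sum.inr 1)‖ with ht
  have ht0 : 0 ≤ t := norm_nonneg _
  have hC1 : 1 ≤ (1 + 2 * C) ^ 2 := by nlinarith
  have hbb : ∀ b b' : Fin 2, ‖p (Sum.inr b, Sum.inr b')‖ ≤ t := by
    have h10 : ‖p (Sum.inr 1, Sum.inr 0)‖ = t := by rw [hp.anti, norm_neg]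
    intro b b'
    fin_cases b <;> fin_cases b'
    · simp only [Fin.zero_eta]; rw [hp.diag, norm_zero]; exact ht0
    · exact le_rfl
    · exact h10.le
    · simp only [Fin.mk_one]; rw [hp.diag, norm_zero]; exact ht0
  have hab : ∀ a b, ‖p (Sum.inl a, Sum.inr b)‖ ≤ δ + 2 * C * t := by
    intro a b
    have e : p (Sum.inl a, Sum.inr b) = cv V p a (Sum.inr b) -
        (V a 0 * p (Sum.inr 0, Sum.inr b) + V a 1 * p (Sum.inr 1, Sum.inr b)) := by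
      simp only [cv]; ring
    rw [e]
    exact (norm_sub_le _ _).trans (add_le_add (h a _) (two_le (hV a 0) (hV a 1) (hbb _ _) (hbb _ _)))
  have hba : ∀ a b, ‖p (Sum.inr b, Sum.inl a)‖ ≤ δ + 2 * C * t := by
    intro a b
    rw [hp.anti, norm_neg]; exact hab a b
  have haa : ∀ a a', ‖p (Sum.inl a, Sum.inl a')‖ ≤ δ + 2 * C * (δ + 2 * C * t) := by
    intro a a'
    have e : p (Sum.inl a, Sum.inl a') = cv V p a (Sum.inl a') -
        (V a 0 * p (Sum.inr 0, Sum.inl a') + V a 1 * p (Sum.inr 1, Sum.inl a')) := by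
      simp only [cv]; ring
    rw [e]
    exact (norm_sub_le _ _).trans (add_le_add (h a _) (two_le (hV a 0) (hV a 1) (hba _ _) (hba _ _)))
  have g1 : δ + 2 * C * t ≤ (1 + 2 * C) ^ 2 * (δ + t) := by
    nlinarith [mul_nonneg hC hδ, mul_nonneg hC ht0, mul_nonneg (mul_nonneg hC hC) hδ,
      mul_nonneg (mul_nonneg hC hC) ht0]
  have g2 : δ + 2 * C * (δ + 2 * C * t) ≤ (1 + 2 * C) ^ 2 * (δ + t) := by
    nlinarith [mul_nonneg hC hδ, mul_nonneg hC ht0, mul_nonneg (mul_nonneg hC hC) hδ,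
      mul_nonneg (mul_nonneg hC hC) ht0]
  have g3 : t ≤ (1 + 2 * C) ^ 2 * (δ + t) := by nlinarith
  obtain ⟨i, j⟩ := Q
  cases i with
  | inl a =>
    cases j with
    | inl a' => exact (haa a a').trans g2
    | inr b => exact (hab a b).trans g1
  | inr b =>
    cases j with
    | inl a => exact (hba a b).trans g1
    | inr b' => exact (hbb b b').trans g3

/-- two planes close to a common line are close -/
lemma close (hC : 0 ≤ C) (hV : ∀ a b, ‖V a b‖ ≤ C) (hV0 : ∀ a b, ‖V0 a b‖ ≤ C)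
    {p : (α ⊕ Fin 2) × (α ⊕ Fin 2) → 𝕜} (hp : Alt p) (hn : Nrm p) {δ : ℝ} (hδ : 0 ≤ δ)
    (h : ∀ a j, ‖cv V p a j‖ ≤ δ) (h0 : ∀ a j, ‖cv V0 p a j‖ ≤ δ) (a : α) (b : Fin 2) :
    ‖V a b - V0 a b‖ ≤ 2 * (1 + C) * (1 + 2 * C) ^ 2 * δ := by
  set t := ‖p (Sum.inr 0, Sum.inr 1)‖ with ht
  have hpl : 1 ≤ (1 + 2 * C) ^ 2 * (δ + t) := by
    obtain ⟨_, Q, hQ⟩ := hn
    have := p_le hC hV hp hδ h Q
    rwa [hQ, norm_one] at this
  set d := ‖V a b - V0 a b‖ with hd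
  have hd0 : 0 ≤ d := norm_nonneg _
  have hd2 : d ≤ 2 * C := (norm_sub_le _ _).trans (by linarith [hV a b, hV0 a b])
  have hdt : d * t ≤ 2 * δ := by
    have key : ∀ b : Fin 2, ‖V a b - V0 a b‖ * t ≤ 2 * δ := by
      intro b
      fin_cases b
      · have e : (V a 0 - V0 a 0) * p (Sum.inr 0, Sum.inr 1) =
            cv V p a (Sum.inr 1) - cv V0 p a (Sum.inr 1) := by
          simp only [cv]; rw [hp.diag]; ring
        simp only [Fin.zero_eta]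
        rw [ht, ← norm_mul, e]
        exact (norm_sub_le _ _).trans (by linarith [h a (Sum.inr 1), h0 a (Sum.inr 1)])
      · have e : (V a 1 - V0 a 1) * p (Sum.inr 0, Sum.inr 1) =
            - (cv V p a (Sum.inr 0) - cv V0 p a (Sum.inr 0)) := by
          simp only [cv]; rw [hp.diag, hp.anti (Sum.inr 1) (Sum.inr 0)]; ring
        simp only [Fin.mk_one]
        rw [ht, ← norm_mul, e, norm_neg]
        exact (norm_sub_le _ _).trans (by linarith [h a (Sum.inr 0), h0 a (Sum.inr 0)])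
    exact key b
  have hD : 0 ≤ (1 + 2 * C) ^ 2 := by positivity
  calc d = d * 1 := (mul_one _).symm
    _ ≤ d * ((1 + 2 * C) ^ 2 * (δ + t)) := by gcongr
    _ = (1 + 2 * C) ^ 2 * (d * δ + d * t) := by ring
    _ ≤ (1 + 2 * C) ^ 2 * (2 * C * δ + 2 * δ) := by gcongr
    _ = _ := by ring

/-- a basis of the plane -/
def yb (V : α → Fin 2 → 𝕜) (b : Fin 2) : α ⊕ Fin 2 → 𝕜 :=
  Sum.elim (fun a => - V a b) fun b' => if b' = b then 1 else 0

/-- the 2-vector of the plane -/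
def eta (V : α → Fin 2 → 𝕜) : (α ⊕ Fin 2) × (α ⊕ Fin 2) → 𝕜 := wd (yb V 0) (yb V 1)

lemma eta_one (V : α → Fin 2 → 𝕜) : eta V (Sum.inr 0, Sum.inr 1) = 1 := by
  simp [eta, wd, yb]

lemma eta_cv (V : α → Fin 2 → 𝕜) (a : α) (j : α ⊕ Fin 2) : cv V (eta V) a j = 0 := by
  have h : ∀ b : Fin 2, fa V (yb V b) a = 0 := by
    intro b
    fin_cases b <;> simp [fa, yb]
  rw [eta, cv_wd, h 0, h 1]; ring

lemma wd_le' (x η : α ⊕ Fin 2 → 𝕜) : ‖wd x η‖ ≤ 2 * (‖x‖ * ‖η‖) := by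
  refine (pi_norm_le_iff_of_nonneg (by positivity)).2 fun p => ?_
  simp only [wd]
  refine (norm_sub_le _ _).trans ?_
  rw [norm_mul, norm_mul]
  have h1 : ‖x p.1‖ * ‖η p.2‖ ≤ ‖x‖ * ‖η‖ :=
    mul_le_mul (norm_le_pi_norm _ _) (norm_le_pi_norm _ _) (norm_nonneg _) (norm_nonneg _)
  have h2 : ‖x p.2‖ * ‖η p.1‖ ≤ ‖x‖ * ‖η‖ :=
    mul_le_mul (norm_le_pi_norm _ _) (norm_le_pi_norm _ _) (norm_nonneg _) (norm_nonneg _)
  linarith

lemma eta_le (hC : 1 ≤ C) (hV : ∀ a b, ‖V a b‖ ≤ C) : ‖eta V‖ ≤ 2 * C ^ 2 := by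
  have h : ∀ b : Fin 2, ‖yb V b‖ ≤ C := by
    intro b
    refine le_fun (by linarith) (fun a => ?_) fun b' => ?_
    · simp only [yb, Sum.elim_inl, norm_neg]; exact hV a b
    · simp only [yb, Sum.elim_inr]
      split_ifs
      · rw [norm_one]; exact hC
      · rw [norm_zero]; linarith
  refine (wd_le' _ _).trans ?_
  have := mul_le_mul (h 0) (h 1) (norm_nonneg _) (by linarith)
  nlinarith

/-- a line close to the plane -/
lemma near_eta (hC : 1 ≤ C) (hV : ∀ a b, ‖V a b‖ ≤ C) {p : (α ⊕ Fin 2) × (α ⊕ Fin 2) → 𝕜}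
    (hp : Alt p) (hn : ‖p‖ ≤ 1) {δ : ℝ} (hδ : 0 ≤ δ) (h : ∀ a j, ‖cv V p a j‖ ≤ δ) (Q R) :
    ‖eta V Q * p R - p Q * eta V R‖ ≤ 4 * C ^ 2 * (1 + 2 * C) ^ 2 * δ := by
  set t := p (Sum.inr 0, Sum.inr 1) with ht
  set p' : (α ⊕ Fin 2) × (α ⊕ Fin 2) → 𝕜 := fun Q => p Q - t * eta V Q with hp'
  have he : Alt (eta V) := alt_wd _ _
  have hpa : Alt p' := by
    refine ⟨fun i => ?_, fun i j => ?_⟩
    · simp only [hp']; rw [hp.diag, he.diag]; ring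
    · simp only [hp']; rw [hp.anti, he.anti]; ring
  have h1 : ∀ a j, ‖cv V p' a j‖ ≤ δ := by
    intro a j
    rw [hp', cv_sub_smul, eta_cv, mul_zero, sub_zero]
    exact h a j
  have h2 : ∀ Q, ‖p' Q‖ ≤ (1 + 2 * C) ^ 2 * δ := by
    intro Q
    have := p_le (by linarith) hV hpa hδ h1 Q
    have e : p' (Sum.inr 0, Sum.inr 1) = 0 := by
      simp only [hp']; rw [eta_one, mul_one, ht, sub_self]
    rwa [e, norm_zero, add_zero] at this
  have e : eta V Q * p R - p Q * eta V R = eta V Q * p' R - p' Q * eta V R := by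
    simp only [hp']; ring
  have h3 : ∀ Q, ‖eta V Q‖ ≤ 2 * C ^ 2 := fun Q => (norm_le_pi_norm _ Q).trans (eta_le hC hV)
  rw [e]
  refine (norm_sub_le _ _).trans ?_
  rw [norm_mul, norm_mul]
  have k1 := mul_le_mul (h3 Q) (h2 R) (norm_nonneg _) (by positivity)
  have k2 := mul_le_mul (h2 Q) (h3 R) (norm_nonneg _) (by positivity)
  nlinarith

/-- a 2-vector in other coordinates -/
lemma wd_bv (hC : 0 ≤ C) (hV : ∀ a b, ‖V a b‖ ≤ C) (u w : α ⊕ Fin 2 → 𝕜) {n : ℝ}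
    (hn : ∀ Q, ‖wd u w Q‖ ≤ n) (Q) : ‖wd (bv V u) (bv V w) Q‖ ≤ (1 + 2 * C) ^ 2 * n := by
  have hn0 : 0 ≤ n := (norm_nonneg _).trans (hn Q)
  have h1 : ∀ a j, ‖fa V u a * w j - u j * fa V w a‖ ≤ (1 + 2 * C) * n := by
    intro a j
    rw [← cv_wd]
    exact cv_le hV hn a j
  have g1 : (1 + 2 * C) * n ≤ (1 + 2 * C) ^ 2 * n := by nlinarith [mul_nonneg hC hn0]
  have g2 : n ≤ (1 + 2 * C) ^ 2 * n := by nlinarith [mul_nonneg hC hn0]
  obtain ⟨i, j⟩ := Q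
  cases i with
  | inl a =>
    cases j with
    | inl a' =>
      have e : wd (bv V u) (bv V w) (Sum.inl a, Sum.inl a') =
          (fa V u a * w (Sum.inl a') - u (Sum.inl a') * fa V w a) +
          (V a' 0 * (fa V u a * w (Sum.inr 0) - u (Sum.inr 0) * fa V w a) +
            V a' 1 * (fa V u a * w (Sum.inr 1) - u (Sum.inr 1) * fa V w a)) := by
        have e1 : fa V u a' = u (Sum.inl a') + (V a' 0 * u (Sum.inr 0) + V a' 1 * u (Sum.inr 1)) :=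
          rfl
        have e2 : fa V w a' = w (Sum.inl a') + (V a' 0 * w (Sum.inr 0) + V a' 1 * w (Sum.inr 1)) :=
          rfl
        simp only [wd, bv_inl]
        rw [e1, e2]; ring
      rw [e]
      refine (norm_add_le _ _).trans ?_
      have := two_le (hV a' 0) (hV a' 1) (h1 a (Sum.inr 0)) (h1 a (Sum.inr 1))
      have := h1 a (Sum.inl a')
      nlinarith
    | inr b =>
      refine le_trans (le_of_eq ?_) ((h1 a (Sum.inr b)).trans g1)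
      rfl
  | inr b =>
    cases j with
    | inl a =>
      have e : wd (bv V u) (bv V w) (Sum.inr b, Sum.inl a) =
          -(fa V u a * w (Sum.inr b) - u (Sum.inr b) * fa V w a) := by
        simp only [wd, bv_inl, bv_inr]; ring
      rw [e, norm_neg]
      exact (h1 a (Sum.inr b)).trans g1
    | inr b' => exact (hn (Sum.inr b, Sum.inr b')).trans g2

end basic

end Vale.Agent.P092.H464.PW
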