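import Vale.Agent.P092.H464.P.BLin

/-!
P092, TEAM P, block [P-KEY2] (helper464): the zoom at a plane and the insertion inequality for the
near-2-wall elements.
-/

set_option linter.all false

namespace Vale.Agent.P092.H464.PW

open Finset Matrix
open Vale.Agent.P092.H589.K2 (Nrm mn)
open Vale.Agent.P092.H820 (wd)
open Vale.Agent.P092.H835.PlF (w3 Alt alt_wd)

section zoom

variable {𝕜 : Type} [NormedField 𝕜] {α : Type}

/-- the zoom at the plane `V0` at scale `ρ` -/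
def gz (ρ : 𝕜) (V0 : α → Fin 2 → 𝕜) (x : α ⊕ Fin 2 → 𝕜) : α ⊕ Fin 2 → 𝕜 := dv ρ⁻¹ 1 (bv V0 x)

/-- the plane `V` in the zoomed coordinates -/
def vz (ρ : 𝕜) (V0 V : α → Fin 2 → 𝕜) : α → Fin 2 → 𝕜 := fun a b => ρ⁻¹ * (V a b - V0 a b)

variable {ρ ϖ : 𝕜} {V V0 : α → Fin 2 → 𝕜} {C : ℝ}

@[simp] lemma gz_inl (x : α ⊕ Fin 2 → 𝕜) (a : α) : gz ρ V0 x (Sum.inl a) = ρ⁻¹ * fa V0 x a := rfl

@[simp] lemma gz_inr (x : α ⊕ Fin 2 → 𝕜) (b : Fin 2) : gz ρ V0 x (Sum.inr b) = x (Sum.inr b) := by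
  simp [gz]

lemma fa_smul (c : 𝕜) (x : α ⊕ Fin 2 → 𝕜) (a : α) : fa V (c • x) a = c * fa V x a := by
  simp only [fa, Pi.smul_apply, smul_eq_mul]; ring

lemma fa_add (x y : α ⊕ Fin 2 → 𝕜) (a : α) : fa V (x + y) a = fa V x a + fa V y a := by
  simp only [fa, Pi.add_apply]; ring

lemma bv_smul (c : 𝕜) (x : α ⊕ Fin 2 → 𝕜) : bv V (c • x) = c • bv V x := by
  funext i
  cases i with
  | inl a => simp only [bv_inl, fa_smul, Pi.smul_apply, smul_eq_mul]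
  | inr b => rfl

lemma bv_add (x y : α ⊕ Fin 2 → 𝕜) : bv V (x + y) = bv V x + bv V y := by
  funext i
  cases i with
  | inl a => simp only [bv_inl, fa_add, Pi.add_apply]
  | inr b => rfl

lemma dv_smul (c d t : 𝕜) (x : α ⊕ Fin 2 → 𝕜) : dv c d (t • x) = t • dv c d x := by
  funext i
  cases i with
  | inl a => simp only [dv_inl, Pi.smul_apply, smul_eq_mul]; ring
  | inr b => simp only [dv_inr, Pi.smul_apply, smul_eq_mul]; ring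

lemma dv_add (c d : 𝕜) (x y : α ⊕ Fin 2 → 𝕜) : dv c d (x + y) = dv c d x + dv c d y := by
  funext i
  cases i with
  | inl a => simp only [dv_inl, Pi.add_apply]; ring
  | inr b => simp only [dv_inr, Pi.add_apply]; ring

lemma gz_smul (c : 𝕜) (x : α ⊕ Fin 2 → 𝕜) : gz ρ V0 (c • x) = c • gz ρ V0 x := by
  rw [gz, bv_smul, dv_smul, gz]

lemma fa_gz (hρ : ρ ≠ 0) (x : α ⊕ Fin 2 → 𝕜) (a : α) :
    fa (vz ρ V0 V) (gz ρ V0 x) a = ρ⁻¹ * fa V x a := by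
  simp only [fa, vz, gz_inl, gz_inr]; ring

/-- the normal form in the zoomed coordinates -/
lemma zoom (hρ : ρ ≠ 0) (x : α ⊕ Fin 2 → 𝕜) :
    dv 1 (ϖ * ρ⁻¹) (bv (vz ρ V0 V) (gz ρ V0 x)) = ρ⁻¹ • dv 1 ϖ (bv V x) := by
  funext i
  cases i with
  | inl a =>
    simp only [dv_inl, bv_inl, fa_gz hρ, Pi.smul_apply, smul_eq_mul]; ring
  | inr b =>
    simp only [dv_inr, bv_inr, gz_inr, Pi.smul_apply, smul_eq_mul]; ring

lemma vz_le (hρ : ρ ≠ 0) (hd : ∀ a b, ‖V a b - V0 a b‖ ≤ C * ‖ρ‖) (a : α) (b : Fin 2) :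
    ‖vz ρ V0 V a b‖ ≤ C := by
  rw [vz, norm_mul, norm_inv, inv_mul_le_iff₀ (norm_pos_iff.2 hρ), mul_comm]
  exact hd a b

end zoom

section ins

variable {𝕜 : Type} [NontriviallyNormedField 𝕜] {α : Type} [Fintype α]
variable {ρ ϖ : 𝕜} {V V0 : α → Fin 2 → 𝕜} {C : ℝ}

lemma le_gz (hC : 0 ≤ C) (hV0 : ∀ a b, ‖V0 a b‖ ≤ C) (hρ : ρ ≠ 0) (hρ1 : ‖ρ‖ ≤ 1)
    (x : α ⊕ Fin 2 → 𝕜) : ‖x‖ ≤ (1 + 2 * C) * ‖gz ρ V0 x‖ := by
  refine (le_bv hC hV0 x).trans ?_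
  have h1 : 1 ≤ ‖ρ⁻¹‖ := by
    rw [norm_inv]; exact (one_le_inv₀ (norm_pos_iff.2 hρ)).2 hρ1
  have h2 := le_dv one_pos h1 (norm_one.ge : (1 : ℝ) ≤ ‖(1 : 𝕜)‖) (bv V0 x)
  rw [one_mul] at h2
  have : 0 ≤ 1 + 2 * C := by positivity
  exact mul_le_mul_of_nonneg_left h2 this

lemma gz_ne (hC : 0 ≤ C) (hV0 : ∀ a b, ‖V0 a b‖ ≤ C) (hρ : ρ ≠ 0) (hρ1 : ‖ρ‖ ≤ 1)
    {x : α ⊕ Fin 2 → 𝕜} (hx : Nrm x) : gz ρ V0 x ≠ 0 := by
  intro h
  have h1 := le_gz hC hV0 hρ hρ1 x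
  rw [h, norm_zero, mul_zero] at h1
  obtain ⟨_, a, ha⟩ := hx
  have := norm_le_pi_norm x a
  rw [ha, norm_one] at this
  linarith

/-- the normalising factor is bounded -/
lemma cn_le (hC : 0 ≤ C) (hV0 : ∀ a b, ‖V0 a b‖ ≤ C) (hρ : ρ ≠ 0) (hρ1 : ‖ρ‖ ≤ 1)
    {x : α ⊕ Fin 2 → 𝕜} (hx : Nrm x) {c : 𝕜} (hc : ‖c • gz ρ V0 x‖ ≤ 1) : ‖c‖ ≤ 1 + 2 * C := by
  have h1 := le_gz hC hV0 hρ hρ1 x
  have h2 : 1 ≤ ‖x‖ := by
    obtain ⟨_, a, ha⟩ := hx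
    have := norm_le_pi_norm x a
    rwa [ha, norm_one] at this
  rw [norm_smul] at hc
  have h3 : ‖c‖ * 1 ≤ ‖c‖ * ((1 + 2 * C) * ‖gz ρ V0 x‖) :=
    mul_le_mul_of_nonneg_left (h2.trans h1) (norm_nonneg _)
  have h4 : 0 ≤ 1 + 2 * C := by positivity
  calc ‖c‖ = ‖c‖ * 1 := (mul_one _).symm
    _ ≤ (1 + 2 * C) * (‖c‖ * ‖gz ρ V0 x‖) := by linarith
    _ ≤ (1 + 2 * C) * 1 := by gcongr
    _ = _ := mul_one _

/-- the constant of `ins` -/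
def ci (C : ℝ) : ℝ := (1 + 2 * C) ^ 2 * (18 * C ^ 5)

lemma ci_pos (hC : 1 ≤ C) : 0 < ci C := by
  have : 0 < C := by linarith
  unfold ci; positivity

lemma w3_two {z x : α ⊕ Fin 2 → 𝕜} (hz : ‖z‖ ≤ 1) (hx : ‖x‖ ≤ 1)
    {p : (α ⊕ Fin 2) × (α ⊕ Fin 2) → 𝕜} {ε : ℝ} (hεz : ‖w3 z p‖ ≤ ε) (hεx : ‖w3 x p‖ ≤ ε)
    (P Q) : ‖mn (wd z x) p P Q‖ ≤ 4 * ε := by
  obtain ⟨a, b⟩ := P
  obtain ⟨c, d⟩ := Q
  have e0 : mn (wd z x) p (a, b) (c, d) = z a * w3 x p (b, (c, d)) - z b * w3 x p (a, (c, d))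
      + x c * w3 z p (a, (b, d)) - x d * w3 z p (a, (b, c)) := by
    simp only [mn, wd, w3]; ring
  rw [e0]
  have h1 : ∀ i T, ‖z i * w3 x p T‖ ≤ ε := by
    intro i T
    rw [norm_mul]
    calc ‖z i‖ * ‖w3 x p T‖ ≤ 1 * ε :=
          mul_le_mul ((norm_le_pi_norm z i).trans hz) ((norm_le_pi_norm _ T).trans hεx)
            (norm_nonneg _) zero_le_one
      _ = ε := one_mul _
  have h2 : ∀ i T, ‖x i * w3 z p T‖ ≤ ε := by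
    intro i T
    rw [norm_mul]
    calc ‖x i‖ * ‖w3 z p T‖ ≤ 1 * ε :=
          mul_le_mul ((norm_le_pi_norm x i).trans hx) ((norm_le_pi_norm _ T).trans hεz)
            (norm_nonneg _) zero_le_one
      _ = ε := one_mul _
  have k1 := h1 a (b, (c, d))
  have k2 := h1 b (a, (c, d))
  have k3 := h2 c (a, (b, d))
  have k4 := h2 d (a, (b, c))
  calc _ ≤ ‖z a * w3 x p (b, (c, d)) - z b * w3 x p (a, (c, d)) + x c * w3 z p (a, (b, d))‖ +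
        ‖x d * w3 z p (a, (b, c))‖ := norm_sub_le _ _
    _ ≤ (‖z a * w3 x p (b, (c, d)) - z b * w3 x p (a, (c, d))‖ + ‖x c * w3 z p (a, (b, d))‖) +
        ‖x d * w3 z p (a, (b, c))‖ := by gcongr; exact norm_add_le _ _
    _ ≤ ((‖z a * w3 x p (b, (c, d))‖ + ‖z b * w3 x p (a, (c, d))‖) +
        ‖x c * w3 z p (a, (b, d))‖) + ‖x d * w3 z p (a, (b, c))‖ := by
        gcongr; exact norm_sub_le _ _
    _ ≤ _ := by linarith

/-- **insertion**: two points incident with nearby lines which are not close to the plane of `k` -/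
lemma ins (hC : 1 ≤ C) (hV : ∀ a b, ‖V a b‖ ≤ C) (hV0 : ∀ a b, ‖V0 a b‖ ≤ C) (hρ : ρ ≠ 0)
    (hρ1 : ‖ρ‖ ≤ 1) (hd : ∀ a b, ‖V a b - V0 a b‖ ≤ C * ‖ρ‖) {z x : α ⊕ Fin 2 → 𝕜}
    (hz : ‖z‖ ≤ 1) (hx : ‖x‖ ≤ 1) {cz cx : 𝕜} (hcz : ‖cz‖ ≤ C) (hcx : ‖cx‖ ≤ C)
    (hz' : ‖cz • gz ρ V0 z‖ ≤ 1) (hx' : ‖cx • gz ρ V0 x‖ ≤ 1)
    {p : (α ⊕ Fin 2) × (α ⊕ Fin 2) → 𝕜} (hp : Nrm p) (hpa : Alt p) {r ε Δ : ℝ} (hΔ : 0 ≤ Δ)
    (hεz : ‖w3 z p‖ ≤ ε) (hεx : ‖w3 x p‖ ≤ ε) (hs : ∃ a j, ‖ρ‖ ≤ C * ‖cv V p a j‖)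
    (hfz : ∀ a, ‖fa V z a‖ ≤ C * r)
    (hfx : ∀ a, ‖fa (vz ρ V0 V) (cx • gz ρ V0 x) a‖ ≤ C * Δ) (hr : r ≤ C * (‖ρ‖ * Δ))
    (hε : ε ≤ ‖ρ‖ * Δ) : ∀ Q, ‖wd (cz • gz ρ V0 z) (cx • gz ρ V0 x) Q‖ ≤ ci C * Δ := by
  have hC0 : 0 ≤ C := by linarith
  have hρ0 : 0 < ‖ρ‖ := norm_pos_iff.2 hρ
  have hε0 : 0 ≤ ε := (norm_nonneg _).trans hεz
  have hC2 : 1 ≤ C ^ 2 := one_le_pow₀ hC
  have hC3 : 1 ≤ C ^ 3 := one_le_pow₀ hC
  have hC4 : C ^ 2 ≤ C ^ 4 := pow_le_pow_right₀ hC (by norm_num)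
  have hC5 : C ^ 4 ≤ C ^ 5 := pow_le_pow_right₀ hC (by norm_num)
  have hC53 : C ^ 3 ≤ C ^ 5 := pow_le_pow_right₀ hC (by norm_num)
  have hC52 : C ^ 2 ≤ C ^ 5 := pow_le_pow_right₀ hC (by norm_num)
  have hC32 : C ^ 2 ≤ C ^ 3 := pow_le_pow_right₀ hC (by norm_num)
  set V' := vz ρ V0 V with hV'
  have hV'n : ∀ a b, ‖V' a b‖ ≤ C := fun a b => vz_le hρ hd a b
  set z' := cz • gz ρ V0 z with hz'd
  set x' := cx • gz ρ V0 x with hx'd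
  -- the first coordinates
  have f1 : ∀ a, fa V' z' a = cz * (ρ⁻¹ * fa V z a) := by
    intro a; rw [hz'd, fa_smul, fa_gz hρ]
  have f2 : ∀ a, cx * fa V x a = ρ * fa V' x' a := by
    intro a; rw [hx'd, fa_smul, fa_gz hρ]; field_simp
  have f3 : ∀ a, ‖cz * fa V z a‖ ≤ C ^ 3 * (‖ρ‖ * Δ) := by
    intro a
    rw [norm_mul]
    calc ‖cz‖ * ‖fa V z a‖ ≤ C * (C * r) := mul_le_mul hcz (hfz a) (norm_nonneg _) hC0
      _ ≤ C * (C * (C * (‖ρ‖ * Δ))) := by gcongr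
      _ = _ := by ring
  have f4 : ∀ a, ‖fa V' z' a‖ ≤ C ^ 3 * Δ := by
    intro a
    have e : fa V' z' a = ρ⁻¹ * (cz * fa V z a) := by rw [f1]; ring
    rw [e, norm_mul, norm_inv, inv_mul_le_iff₀ hρ0]
    refine (f3 a).trans (le_of_eq ?_)
    ring
  have b1 : ‖bv V' z'‖ ≤ 1 + 2 * C := by
    refine (bv_le hC0 hV'n z').trans ?_
    have : 0 ≤ 1 + 2 * C := by positivity
    calc (1 + 2 * C) * ‖z'‖ ≤ (1 + 2 * C) * 1 := by gcongr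
      _ = _ := mul_one _
  have b2 : ‖bv V' x'‖ ≤ 1 + 2 * C := by
    refine (bv_le hC0 hV'n x').trans ?_
    have : 0 ≤ 1 + 2 * C := by positivity
    calc (1 + 2 * C) * ‖x'‖ ≤ (1 + 2 * C) * 1 := by gcongr
      _ = _ := mul_one _
  -- the entries with an index `inl a`
  have g1 : ∀ a j, ‖wd (bv V' z') (bv V' x') (Sum.inl a, j)‖ ≤ 18 * C ^ 5 * Δ := by
    intro a j
    have e : wd (bv V' z') (bv V' x') (Sum.inl a, j) =
        fa V' z' a * bv V' x' j - bv V' z' j * fa V' x' a := rfl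
    rw [e]
    refine (norm_sub_le _ _).trans ?_
    rw [norm_mul, norm_mul]
    have k1 : ‖fa V' z' a‖ * ‖bv V' x' j‖ ≤ C ^ 3 * Δ * (1 + 2 * C) :=
      mul_le_mul (f4 a) ((norm_le_pi_norm _ j).trans b2) (norm_nonneg _) (by positivity)
    have k2 : ‖bv V' z' j‖ * ‖fa V' x' a‖ ≤ (1 + 2 * C) * (C * Δ) :=
      mul_le_mul ((norm_le_pi_norm _ j).trans b1) (hfx a) (norm_nonneg _) (by positivity)
    have k3 : C ^ 3 * (1 + 2 * C) + (1 + 2 * C) * C ≤ 18 * C ^ 5 := by nlinarith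
    calc _ ≤ C ^ 3 * Δ * (1 + 2 * C) + (1 + 2 * C) * (C * Δ) := add_le_add k1 k2
      _ = (C ^ 3 * (1 + 2 * C) + (1 + 2 * C) * C) * Δ := by ring
      _ ≤ _ := by gcongr
  -- the other entries
  obtain ⟨P0, hP0⟩ := hp.2
  set θ := wd z x P0 with hθ
  have m1 : ∀ Q, ‖wd z x Q - θ * p Q‖ ≤ 4 * ε := by
    intro Q
    have e : wd z x Q - θ * p Q = mn (wd z x) p Q P0 := by
      simp only [mn, hP0, mul_one]; ring
    rw [e]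
    exact w3_two hz hx hεz hεx Q P0
  obtain ⟨a, j, haj⟩ := hs
  have m2 : ‖cv V (wd z x) a j - θ * cv V p a j‖ ≤ (1 + 2 * C) * (4 * ε) := by
    rw [← cv_sub_smul]
    exact cv_le hV m1 a j
  have hκ : ‖cz * cx‖ ≤ C ^ 2 := by
    rw [norm_mul, sq]; exact mul_le_mul hcz hcx (norm_nonneg _) hC0
  have m3 : ‖cz * cx * cv V (wd z x) a j‖ ≤ 2 * C ^ 4 * (‖ρ‖ * Δ) := by
    have e : cz * cx * cv V (wd z x) a j =
        (cz * fa V z a) * (cx * x j) - (cz * z j) * (ρ * fa V' x' a) := by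
      rw [cv_wd, ← f2]; ring
    rw [e]
    refine (norm_sub_le _ _).trans ?_
    rw [norm_mul (cz * fa V z a), norm_mul (cz * z j), norm_mul ρ]
    have k1 : ‖cx * x j‖ ≤ C := by
      rw [norm_mul]
      calc ‖cx‖ * ‖x j‖ ≤ C * 1 :=
            mul_le_mul hcx ((norm_le_pi_norm x j).trans hx) (norm_nonneg _) hC0
        _ = C := mul_one _
    have k2 : ‖cz * z j‖ ≤ C := by
      rw [norm_mul]
      calc ‖cz‖ * ‖z j‖ ≤ C * 1 :=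
            mul_le_mul hcz ((norm_le_pi_norm z j).trans hz) (norm_nonneg _) hC0
        _ = C := mul_one _
    have k3 : ‖cz * fa V z a‖ * ‖cx * x j‖ ≤ C ^ 3 * (‖ρ‖ * Δ) * C :=
      mul_le_mul (f3 a) k1 (norm_nonneg _) (by positivity)
    have k4 : ‖cz * z j‖ * (‖ρ‖ * ‖fa V' x' a‖) ≤ C * (‖ρ‖ * (C * Δ)) := by
      refine mul_le_mul k2 ?_ (by positivity) hC0
      exact mul_le_mul_of_nonneg_left (hfx a) hρ0.le
    have k5 : 0 ≤ ‖ρ‖ * Δ := by positivity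
    calc _ ≤ C ^ 3 * (‖ρ‖ * Δ) * C + C * (‖ρ‖ * (C * Δ)) := add_le_add k3 k4
      _ = (C ^ 4 + C ^ 2) * (‖ρ‖ * Δ) := by ring
      _ ≤ (C ^ 4 + C ^ 4) * (‖ρ‖ * Δ) := by gcongr
      _ = _ := by ring
  have m4 : ‖cz * cx * θ‖ ≤ 14 * C ^ 5 * Δ := by
    have e : cz * cx * θ * cv V p a j = cz * cx * cv V (wd z x) a j -
        cz * cx * (cv V (wd z x) a j - θ * cv V p a j) := by ring
    have k1 : ‖cz * cx * θ * cv V p a j‖ ≤ 14 * C ^ 4 * (‖ρ‖ * Δ) := by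
      rw [e]
      refine (norm_sub_le _ _).trans ?_
      have k2 : ‖cz * cx * (cv V (wd z x) a j - θ * cv V p a j)‖
          ≤ C ^ 2 * ((1 + 2 * C) * (4 * (‖ρ‖ * Δ))) := by
        rw [norm_mul]
        refine mul_le_mul hκ (m2.trans ?_) (norm_nonneg _) (by positivity)
        gcongr
      have k5 : 0 ≤ ‖ρ‖ * Δ := by positivity
      have k6 : C ^ 2 * ((1 + 2 * C) * 4) ≤ 12 * C ^ 4 := by nlinarith
      calc _ ≤ 2 * C ^ 4 * (‖ρ‖ * Δ) + C ^ 2 * ((1 + 2 * C) * (4 * (‖ρ‖ * Δ))) := add_le_add m3 k2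
        _ = (2 * C ^ 4 + C ^ 2 * ((1 + 2 * C) * 4)) * (‖ρ‖ * Δ) := by ring
        _ ≤ (2 * C ^ 4 + 12 * C ^ 4) * (‖ρ‖ * Δ) := by gcongr
        _ = _ := by ring
    have k7 : ‖ρ‖ * ‖cz * cx * θ‖ ≤ ‖ρ‖ * (14 * C ^ 5 * Δ) := by
      calc ‖ρ‖ * ‖cz * cx * θ‖ ≤ C * ‖cv V p a j‖ * ‖cz * cx * θ‖ := by gcongr
        _ = C * ‖cz * cx * θ * cv V p a j‖ := by rw [norm_mul (cz * cx * θ)]; ring
        _ ≤ C * (14 * C ^ 4 * (‖ρ‖ * Δ)) := by gcongr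
        _ = _ := by ring
    exact le_of_mul_le_mul_left k7 hρ0
  have m5 : ∀ Q, ‖cz * cx * wd z x Q‖ ≤ 18 * C ^ 5 * Δ := by
    intro Q
    have e : cz * cx * wd z x Q = cz * cx * θ * p Q + cz * cx * (wd z x Q - θ * p Q) := by ring
    rw [e]
    refine (norm_add_le _ _).trans ?_
    have k1 : ‖cz * cx * θ * p Q‖ ≤ 14 * C ^ 5 * Δ := by
      rw [norm_mul]
      calc ‖cz * cx * θ‖ * ‖p Q‖ ≤ 14 * C ^ 5 * Δ * 1 :=
            mul_le_mul m4 ((norm_le_pi_norm p Q).trans hp.1) (norm_nonneg _) (by positivity)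
        _ = _ := mul_one _
    have k2 : ‖cz * cx * (wd z x Q - θ * p Q)‖ ≤ C ^ 2 * (4 * ε) := by
      rw [norm_mul]
      exact mul_le_mul hκ (m1 Q) (norm_nonneg _) (by positivity)
    have k3 : ε ≤ Δ := hε.trans (by nlinarith)
    calc _ ≤ 14 * C ^ 5 * Δ + C ^ 2 * (4 * ε) := add_le_add k1 k2
      _ ≤ 14 * C ^ 5 * Δ + C ^ 5 * (4 * Δ) := by gcongr
      _ = _ := by ring
  have g2 : ∀ Q, ‖wd (bv V' z') (bv V' x') Q‖ ≤ 18 * C ^ 5 * Δ := by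
    rintro ⟨i, j⟩
    cases i with
    | inl a => exact g1 a j
    | inr b =>
      cases j with
      | inl a =>
        have e : wd (bv V' z') (bv V' x') (Sum.inr b, Sum.inl a) =
            - wd (bv V' z') (bv V' x') (Sum.inl a, Sum.inr b) := by
          simp only [wd]; ring
        rw [e, norm_neg]
        exact g1 a _
      | inr b' =>
        have e : wd (bv V' z') (bv V' x') (Sum.inr b, Sum.inr b') =
            cz * cx * wd z x (Sum.inr b, Sum.inr b') := by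
          simp only [wd, bv_inr, hz'd, hx'd, Pi.smul_apply, gz_inr, smul_eq_mul]; ring
        rw [e]
        exact m5 _
  intro Q
  have e1 := bv_neg V' z'
  have e2 := bv_neg V' x'
  have := wd_bv hC0 (neg_le hV'n) (bv V' z') (bv V' x') g2 Q
  rw [e1, e2] at this
  refine this.trans (le_of_eq ?_)
  rw [ci]; ring

end ins

section meas

variable {𝕜 : Type} [NontriviallyNormedField 𝕜] [ProperSpace 𝕜] [MeasurableSpace 𝕜]
  [BorelSpace 𝕜] {α : Type} [Fintype α]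

lemma cont_gz (ρ : 𝕜) (V0 : α → Fin 2 → 𝕜) : Continuous (gz ρ V0) := by
  refine continuous_pi fun i => ?_
  cases i with
  | inl a =>
    simp only [gz_inl, fa]
    fun_prop
  | inr b =>
    simp only [gz_inr]
    exact continuous_apply _

lemma meas_gz {X : Type} [MeasurableSpace X] {s : X → α ⊕ Fin 2 → 𝕜} (hs : Measurable s) (ρ : 𝕜)
    (V0 : α → Fin 2 → 𝕜) : Measurable fun x => gz ρ V0 (s x) :=
  (cont_gz ρ V0).measurable.comp hs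

end meas

end Vale.Agent.P092.H464.PW
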