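import Vale.Agent.P092.H589.PK

/-!
P092, TEAM P, block [P-KEY2] (helper464): **the bound of the near-2-wall families** (COUNT_2).
-/

set_option linter.all false

namespace Vale.Agent.P092.H464.PW

open Finset Matrix
open Vale.Agent.P092.H464 (Pv CI)
open Vale.Agent.P092.H589.K2 (Cells code Nrm Tame Opf code_count code_count_ball code_small
  measurable_code)
open Vale.Agent.P092.H589.Mu (Cap)
open Vale.Agent.P092.H589.PK (bstep)
open Vale.Agent.P092.H820 (wd)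
open Vale.Agent.P092.H835.PlF (w3 Alt)

theorem kb {K : Type} [NormedAddCommGroup K] [InnerProductSpace ℂ K] [CompleteSpace K]
    {𝕜 : Type} [NontriviallyNormedField 𝕜] [ProperSpace 𝕜] [MeasurableSpace 𝕜] [BorelSpace 𝕜]
    (cl : Cells 𝕜) {α γ : Type} [Fintype α] [DecidableEq α] [Fintype γ] {φ : (γ → 𝕜) → ℂ}
    (hφ : Tame K φ) (C₁ : ℝ) (hC₁ : 1 ≤ C₁) : ∃ C : ℝ, 0 ≤ C ∧
    ∀ (X Y : Type) [MeasurableSpace X] [MeasurableSpace Y] (s : X → α ⊕ Fin 2 → 𝕜)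
      (p : Y → (α ⊕ Fin 2) × (α ⊕ Fin 2) → 𝕜), Measurable s → Measurable p →
      (∀ x, Nrm (s x)) → (∀ y, Nrm (p y)) → (∀ y, Alt (p y)) →
      ∀ (Inc : X → Y → Prop), (∀ x y, Inc x y → w3 (s x) (p y) = 0) →
      ∀ (Pc Pp : Set X → (K →L[ℂ] K)) (Lm : Set Y → (K →L[ℂ] K)), Pv Pc → Pv Pp → Pv Lm →
      CI Inc Pc Lm → CI Inc Pp Lm →
      ∀ (κ : Type) (S : Finset κ) (V : κ → α → Fin 2 → 𝕜) (ϖ : κ → 𝕜)
      (A : κ → Matrix γ (α ⊕ Fin 2) 𝕜) (A' : κ → Matrix (α ⊕ Fin 2) γ 𝕜) (r : ℝ),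
      0 < r → r ≤ 1 → (∀ k ∈ S, ∀ a b, ‖V k a b‖ ≤ C₁) →
      (∀ k ∈ S, r ≤ C₁ * ‖ϖ k‖ ∧ ‖ϖ k‖ ≤ C₁ * r) →
      (∀ k ∈ S, A' k * A k = 1) → (∀ k ∈ S, ∀ a b, ‖A k a b‖ ≤ C₁) →
      (∀ k ∈ S, ∀ a b, ‖A' k a b‖ ≤ C₁) →
      ∀ (E W : κ → (K →L[ℂ] K)) (F : κ → X → ℂ) (N : ℝ), 0 ≤ N →
      (∀ k ∈ S, ∀ D, MeasurableSet D → E k * Pc D = Pc D * E k) →
      (∀ k ∈ S, ∀ D, MeasurableSet D → (∀ z ∈ D, ∃ a, C₁ * r < ‖fa (V k) (s z) a‖) →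
        E k * Pc D = 0) → Cap S E N →
      (∀ k ∈ S, ∀ x, F k x = φ (A k *ᵥ dv 1 (ϖ k) (bv (V k) (s x)))) →
      (∀ k ∈ S, Measurable (F k)) → (∀ k ∈ S, Opf Pp (F k) (W k)) →
      (∀ k ∈ S, ∀ D, MeasurableSet D → W k * Lm D = Lm D * W k) →
      Cap S (fun k => E k * W k) (C * (1 + Real.log (1 / r)) ^ 2 * N) := by
  classical
  obtain ⟨τ, hτ⟩ := NormedField.exists_one_lt_norm 𝕜
  have hτ0 : 0 < ‖τ‖ := one_pos.trans hτ
  set c : ℝ := 1 + 2 * C₁ with hc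
  have hc1 : 1 ≤ c := by rw [hc]; linarith
  have hc0 : 0 < c := by linarith
  have hC0 : 0 ≤ C₁ := by linarith
  set C₂ : ℝ := 4 * (1 + C₁) * c ^ 3 * ‖τ‖ with hC₂
  have hC₂1 : 1 ≤ C₂ := by
    have h1 : 1 ≤ c ^ 3 := one_le_pow₀ hc1
    have h2 : 1 ≤ 4 * (1 + C₁) * c ^ 3 := by nlinarith
    rw [hC₂]; nlinarith
  have hC12 : C₁ ≤ C₂ := by
    have h1 : 1 ≤ c ^ 3 := one_le_pow₀ hc1
    have h2 : C₁ ≤ 4 * (1 + C₁) * c ^ 3 := by nlinarith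
    rw [hC₂]; nlinarith
  have hτ2 : ‖τ‖ ≤ C₂ := by
    have h1 : 1 ≤ c ^ 3 := one_le_pow₀ hc1
    have h2 : 1 ≤ 4 * (1 + C₁) * c ^ 3 := by nlinarith
    rw [hC₂]; nlinarith
  obtain ⟨CB, hCB0, hCB⟩ := bstep cl (α := α) (γ := γ) hφ C₂ hC₂1
  obtain ⟨M₁, hM₁⟩ := code_count (c := cl) (ι := (α ⊕ Fin 2) × (α ⊕ Fin 2))
    (4 * C₁ ^ 2 * c ^ 2 * (2 * c)) (2 * C₁ ^ 2)
  obtain ⟨M₂, hM₂⟩ := code_count (c := cl) (ι := (α ⊕ Fin 2) × (α ⊕ Fin 2))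
    (4 * C₁ ^ 2 * c ^ 2 * (4 * c)) (2 * C₁ ^ 2)
  refine ⟨max M₁ M₂ * (2 * (CB * 3)), by positivity, ?_⟩
  intro X Y _ _ s p hs hp hns hnp hap Inc hI Pc Pp Lm hPc hPp hLm hCc hCp κ S V ϖ A A' r hr hr1 hV
    hϖ hA1 hA hA' E W F N hN hEc hEl hE hF hFm hW hWc v
  -- the neighbourhoods
  set R : κ → ℕ → Y → Prop := fun k m y => ∃ y', code cl m (p y') = code cl m (p y) ∧
    ∀ a j, ‖cv (V k) (p y') a j‖ ≤ c * (1 / 2) ^ m with hR
  have near : ∀ k ∈ S, ∀ m y, R k m y → ∀ a j, ‖cv (V k) (p y) a j‖ ≤ 2 * c * (1 / 2) ^ m := by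
    intro k hk m y hy a j
    obtain ⟨y', h1, h2⟩ := hy
    have h3 := code_small h1.symm
    have h4 : ∀ Q, ‖(p y - p y') Q‖ ≤ (1 / 2) ^ m := fun Q => (norm_le_pi_norm _ Q).trans h3
    have h5 := cv_le (hV k hk) h4 a j
    rw [cv_sub] at h5
    have e : cv (V k) (p y) a j = (cv (V k) (p y) a j - cv (V k) (p y') a j) +
        cv (V k) (p y') a j := by ring
    rw [e]
    refine (norm_add_le _ _).trans ?_
    have := h2 a j
    linarith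
  have pow1 : ∀ m : ℕ, ((1 : ℝ) / 2) ^ (m + 1) = (1 / 2) ^ m * (1 / 2) := fun m => pow_succ _ _
  have pos : ∀ m : ℕ, (0 : ℝ) < (1 / 2) ^ m := fun m => by positivity
  -- `J`
  obtain ⟨J, hJ1, hJ2⟩ := exists_nat_pow_near_of_lt_one hr hr1 (by norm_num : (0 : ℝ) < 1 / 2)
    (by norm_num)
  have hlog : 0 ≤ Real.log (1 / r) := Real.log_nonneg (by rw [le_div_iff₀ hr]; linarith)
  have hJlog : (J : ℝ) ≤ 2 * Real.log (1 / r) := by
    have h1 : Real.log r ≤ J * Real.log (1 / 2) := by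
      rw [← Real.log_pow]
      exact Real.log_le_log hr hJ2
    have h2 : Real.log (1 / r) = - Real.log r := by rw [one_div, Real.log_inv]
    have h3 : Real.log (1 / 2) = - Real.log 2 := by rw [one_div, Real.log_inv]
    have h4 : (1 : ℝ) / 2 ≤ Real.log 2 := by linarith [Real.log_two_gt_d9]
    rw [h3] at h1
    rw [h2]
    have h5 : (0 : ℝ) ≤ J := Nat.cast_nonneg _
    nlinarith
  -- one class
  have cls : ∀ m ≤ J, ∀ S' ⊆ S, S'.Nonempty → ∀ D : Set Y, MeasurableSet D → D.Nonempty →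
      (∀ k ∈ S', ∀ y ∈ D, R k m y) → (∀ k ∈ S', ∀ y ∈ D, R k (m + 1) y → m = J) → ∀ v,
      ∑ k ∈ S', ‖(E k * W k) (Lm D v)‖ ^ 2 ≤ (CB * (((J + 1 : ℕ) : ℝ) + 1) * N) ^ 2 *
        ‖Lm D v‖ ^ 2 := by
    intro m hm S' hS' hne D hD hDne hRD hRD' v
    obtain ⟨k0, hk0⟩ := hne
    obtain ⟨y0, hy0⟩ := hDne
    obtain ⟨ρ, hρ, hρ1, hρ2⟩ := H835.NF.exists_scale hτ
      (show (0 : ℝ) < (1 / 2) ^ m / ‖τ‖ from div_pos (pos m) hτ0)
    rw [div_le_iff₀ hτ0] at hρ1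
    rw [mul_div_cancel₀ _ hτ0.ne'] at hρ2
    have hm1 : ((1 : ℝ) / 2) ^ m ≤ 1 := pow_le_one₀ (by norm_num) (by norm_num)
    have hrm : r ≤ (1 / 2) ^ m :=
      hJ2.trans (pow_le_pow_of_le_one (by norm_num) (by norm_num) hm)
    refine hCB X Y s p hs hp hns hnp hap Inc hI Pc Pp Lm hPc hPp hLm hCc hCp κ S' (V k0) V ϖ A A'
      r ρ hr hρ (hρ2.trans hm1) ?_ (fun a b => (hV k0 (hS' hk0) a b).trans hC12)
      (fun k hk a b => (hV k (hS' hk) a b).trans hC12) ?_ (fun k hk => ?_)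
      (fun k hk => hA1 k (hS' hk)) (fun k hk a b => (hA k (hS' hk) a b).trans hC12)
      (fun k hk a b => (hA' k (hS' hk) a b).trans hC12) D hD ?_ (J + 1) hJ1.le E W F N hN
      (fun k hk => hEc k (hS' hk)) (fun k hk D' hD' h => hEl k (hS' hk) D' hD' fun z hz => ?_) ?_
      (fun k hk => hF k (hS' hk)) (fun k hk => hFm k (hS' hk)) (fun k hk => hW k (hS' hk))
      (fun k hk => hWc k (hS' hk)) v
    · calc r ≤ (1 / 2) ^ m := hrm
        _ ≤ ‖ρ‖ * ‖τ‖ := hρ1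
        _ ≤ ‖ρ‖ * C₂ := by gcongr
        _ = _ := mul_comm _ _
    · intro k hk a b
      have h1 := close hC0 (hV k (hS' hk)) (hV k0 (hS' hk0)) (hap y0) (hnp y0)
        (δ := 2 * c * (1 / 2) ^ m) (by positivity) (near k (hS' hk) m y0 (hRD k hk y0 hy0))
        (near k0 (hS' hk0) m y0 (hRD k0 hk0 y0 hy0)) a b
      refine h1.trans ?_
      calc 2 * (1 + C₁) * (1 + 2 * C₁) ^ 2 * (2 * c * (1 / 2) ^ m)
          = 4 * (1 + C₁) * c ^ 3 * (1 / 2) ^ m := by rw [hc]; ring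
        _ ≤ 4 * (1 + C₁) * c ^ 3 * (‖ρ‖ * ‖τ‖) := by gcongr
        _ = _ := by rw [hC₂]; ring
    · obtain ⟨h1, h2⟩ := hϖ k (hS' hk)
      exact ⟨h1.trans (by gcongr), h2.trans (by gcongr)⟩
    · intro k hk y hy
      by_cases hRk : R k (m + 1) y
      · right
        have hmJ := hRD' k hk y hy hRk
        calc ‖ρ‖ ≤ (1 / 2) ^ m := hρ2
          _ = 2 * (1 / 2) ^ (J + 1) := by rw [hmJ, pow1]; ring
          _ ≤ 2 * r := by gcongr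
          _ ≤ C₂ * r := by
              have h1 : 1 ≤ c ^ 3 := one_le_pow₀ hc1
              have h2 : 2 ≤ 4 * (1 + C₁) * c ^ 3 := by nlinarith
              have h3 : 2 ≤ C₂ := by rw [hC₂]; nlinarith
              gcongr
      · left
        have h1 : ¬ ∀ a j, ‖cv (V k) (p y) a j‖ ≤ c * (1 / 2) ^ (m + 1) := fun h =>
          hRk ⟨y, rfl, h⟩
        push Not at h1
        obtain ⟨a, j, h2⟩ := h1
        refine ⟨a, j, ?_⟩
        rw [pow1] at h2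
        have h4 : 2 ≤ C₂ := by
          have h1 : 1 ≤ c ^ 3 := one_le_pow₀ hc1
          have h2 : 2 ≤ 4 * (1 + C₁) * c ^ 3 := by nlinarith
          rw [hC₂]; nlinarith
        have h5 : (1 / 2) ^ m * (1 / 2) ≤ c * ((1 / 2) ^ m * (1 / 2)) := by
          have := pos m
          nlinarith
        calc ‖ρ‖ ≤ (1 / 2) ^ m := hρ2
          _ = 2 * ((1 / 2) ^ m * (1 / 2)) := by ring
          _ ≤ 2 * ‖cv (V k) (p y) a j‖ := by linarith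
          _ ≤ C₂ * ‖cv (V k) (p y) a j‖ := by gcongr
    · obtain ⟨a, ha⟩ := h z hz
      exact ⟨a, lt_of_le_of_lt (by gcongr) ha⟩
    · intro w
      exact (sum_le_sum_of_subset_of_nonneg hS' fun _ _ _ => sq_nonneg _).trans (hE w)
  have hw := whit hLm J (fun m y => code cl m (p y)) ?_ (fun m t => measurable_code hp m t) S R
    ?_ ?_ ?_ (max M₁ M₂) ?_ ?_ (fun k => E k * W k) (CB * (((J + 1 : ℕ) : ℝ) + 1) * N)
    (by positivity) ?_ ?_ v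
  · refine hw.trans ?_
    have hMn : (0 : ℝ) ≤ ((max M₁ M₂ : ℕ) : ℝ) := Nat.cast_nonneg _
    refine mul_le_mul_of_nonneg_right (pow_le_pow_left₀ (by positivity) ?_ 2) (sq_nonneg _)
    have h1 : (J : ℝ) + 1 ≤ 2 * (1 + Real.log (1 / r)) := by linarith
    have h2 : ((J + 1 : ℕ) : ℝ) + 1 ≤ 3 * (1 + Real.log (1 / r)) := by push_cast; linarith
    calc ((max M₁ M₂ : ℕ) : ℝ) * (J + 1) * (CB * (((J + 1 : ℕ) : ℝ) + 1) * N)
        ≤ ((max M₁ M₂ : ℕ) : ℝ) * (2 * (1 + Real.log (1 / r))) *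
          (CB * (3 * (1 + Real.log (1 / r))) * N) := by gcongr
      _ = _ := by push_cast; ring
  · intro m
    obtain ⟨M, hM⟩ := code_count_ball (c := cl) (ι := (α ⊕ Fin 2) × (α ⊕ Fin 2)) (2 ^ m)
    obtain ⟨G, _, hG⟩ := hM m 0
    refine ⟨G, fun y => hG _ ?_⟩
    rw [sub_zero, ← mul_pow]
    norm_num
    exact (hnp y).1
  · rintro k _ m y y' hyy ⟨y₀, h1, h2⟩
    exact ⟨y₀, h1.trans hyy, h2⟩
  · intro k hk m y hy
    refine ⟨y, rfl, fun a j => (near k hk (m + 1) y hy a j).trans (le_of_eq ?_)⟩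
    rw [pow1]; ring
  · intro k hk y
    refine ⟨y, rfl, fun a j => ?_⟩
    rw [pow_zero]
    exact cv_le (hV k hk) (fun Q => (norm_le_pi_norm _ Q).trans (hnp y).1) a j
  · intro k hk m
    obtain ⟨G, hG1, hG2⟩ := hM₁ m (eta (V k)) (eta_le hC₁ (hV k hk)) ⟨_, eta_one (V k)⟩
    refine ⟨G, hG1.trans (le_max_left _ _), fun y hy => hG2 _ (hnp y) fun Q Q' => ?_⟩
    refine (near_eta hC₁ (hV k hk) (hap y) (hnp y).1 (by positivity)
      (near k hk m y hy) Q Q').trans (le_of_eq ?_)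
    rw [hc]; ring
  · intro k hk m
    obtain ⟨G, hG1, hG2⟩ := hM₂ (m + 1) (eta (V k)) (eta_le hC₁ (hV k hk)) ⟨_, eta_one (V k)⟩
    refine ⟨G, hG1.trans (le_max_right _ _), fun y hy => hG2 _ (hnp y) fun Q Q' => ?_⟩
    refine (near_eta hC₁ (hV k hk) (hap y) (hnp y).1 (by positivity)
      (near k hk m y hy) Q Q').trans (le_of_eq ?_)
    rw [hc, pow1]; ring
  · intro m hm S' hS' hne D hD hDne hRD w
    exact cls m hm.le S' hS' hne D hD hDne (fun k hk y hy => (hRD k hk y hy).1)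
      (fun k hk y hy h => absurd h (hRD k hk y hy).2) w
  · intro S' hS' hne D hD hDne hRD w
    exact cls J le_rfl S' hS' hne D hD hDne hRD (fun _ _ _ _ _ => rfl) w

end Vale.Agent.P092.H464.PW
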