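import Vale.Agent.P092.H261.C1b
import Vale.Agent.P092.H464.P.KB
import Vale.Agent.P092.H589.PN
import Vale.Agent.P092.H315P.OppE

/-!
P092, TEAM P, COUNT_2 (helper464): the estimate for the words `l · p` of a chain `l — e — m — p`
over the near-2-wall elements of `Sp_4`.
-/

set_option linter.all false

open scoped InnerProductSpace ENNReal LinearAlgebra.Projectivization ZeroAtInfty Matrix
open Filter Topology ContinuousLinearMap MeasureTheory TopologicalSpace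

namespace Vale.Agent.P092.H464.PC

open Vale.Agent.P092.SP
open Vale.Agent.P092.SP4 (S4 LL on prp prp_mk on_mk on_closed smul_LL smul_YY val_cont LL_closed)
open Vale.Agent.P092.RC (YY GG)
open Vale.Agent.P092.H100.Gr (Gr)
open Vale.Agent.P092.H87.N (nmn cl exists_pivn)
open Vale.Agent.P092.H464 (Pv CI)
open Vale.Agent.P092.H464.PW (fa bv dv kb bv_inl dv_inl)
open Vale.Agent.P092.H589.K2 (Nrm Tame Opf Cells)
open Vale.Agent.P092.H589.Mu (Cap)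
open Vale.Agent.P092.H835.PlF (Alt w3 sq)
open Vale.Agent.P092.H835.PlGr (plk plk_cont plk_emb plk_smul rep_alt rep_line mem_iff lam2)
open Vale.Agent.P092.H820 (pj wd pj_surj)
open Vale.Agent.P092.H914 (SecStmt OpfStmt TD)
open Vale.Agent.P092.H261.C1 (sp_of entry_le nm_nonneg pl pl_cont norm_act_le tsupport_act' ball_card)

section coords

variable {k : Type} [NontriviallyNormedField k]

lemma nrm_comp {ι ι' : Type} [Fintype ι] [Fintype ι'] {v : ι → k} (e : ι' ≃ ι) (h : Nrm v) :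
    Nrm (v ∘ e) := by
  obtain ⟨h1, a, ha⟩ := h
  refine ⟨(pi_norm_le_iff_of_nonneg zero_le_one).2 fun i => (norm_le_pi_norm v _).trans h1,
    e.symm a, ?_⟩
  rw [Function.comp_apply, Equiv.apply_symm_apply, ha]

/-- the coordinates of a 2-vector -/
def pe {ι ι' : Type} (e : ι' ≃ ι) (ω : ι × ι → k) : ι' × ι' → k := ω ∘ (Equiv.prodCongr e e)

lemma pe_alt {ι ι' : Type} (e : ι' ≃ ι) {ω : ι × ι → k} (h : Alt ω) : Alt (pe e ω) :=
  ⟨fun i => h.diag (e i), fun i j => h.anti (e i) (e j)⟩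

lemma pe_w3 {ι ι' : Type} (e : ι' ≃ ι) {ω : ι × ι → k} {v : ι → k} (h : w3 v ω = 0) :
    w3 (v ∘ e) (pe e ω) = 0 := by
  funext Q
  have := congrFun h (e Q.1, (e Q.2.1, e Q.2.2))
  exact this

lemma meas_comp [ProperSpace k] [MeasurableSpace k] [BorelSpace k] {X ι ι' : Type}
    [MeasurableSpace X] {s : X → ι → k} (hs : Measurable s) (e : ι' → ι) :
    Measurable fun x => s x ∘ e :=
  measurable_pi_iff.2 fun i => measurable_pi_iff.1 hs (e i)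

end coords

section minor

variable {k : Type} [NontriviallyNormedField k]

lemma exists_minor (g : S4 k) {R Cn M : ℝ} (h1 : NW2 R g) (hM : M ≤ Real.exp 1 * nm g)
    (hM0 : 0 ≤ M) (hC : Real.exp 1 ^ 2 * |R| ≤ Cn) :
    ∃ i i' j j', M ^ 2 ≤ Cn * ‖g.1.1 i j * g.1.1 i' j' - g.1.1 i j' * g.1.1 i' j‖ := by
  obtain ⟨⟨⟨i1, i2⟩, ⟨j1, j2⟩⟩, -, hmax⟩ := Finset.exists_max_image
    (Finset.univ : Finset ((Fin 4 × Fin 4) × (Fin 4 × Fin 4)))
    (fun p => ‖H337.NG.mi g.1.1 p.1.1 p.1.2 p.2.1 p.2.2‖) ⟨((0, 0), (0, 0)), Finset.mem_univ _⟩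
  have h2 : m2 g ≤ ‖H337.NG.mi g.1.1 i1 i2 j1 j2‖ :=
    H337.NG.m2_le_of (norm_nonneg _) fun i i' j j' => hmax ((i, i'), (j, j')) (Finset.mem_univ _)
  have h3 : 0 ≤ m2 g := H337.NG.m2_nonneg _
  have e : H337.NG.mi g.1.1 i1 i2 j1 j2 =
      g.1.1 i1 j1 * g.1.1 i2 j2 - g.1.1 i1 j2 * g.1.1 i2 j1 := by
    unfold H337.NG.mi; ring
  rw [e] at h2
  refine ⟨i1, i2, j1, j2, ?_⟩
  have h4 : nm g ^ 2 ≤ |R| * m2 g :=
    (h1 : nm g ^ 2 ≤ R * m2 g).trans (mul_le_mul_of_nonneg_right (le_abs_self R) h3)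
  have hC0 : 0 ≤ Cn := le_trans (by positivity) hC
  calc M ^ 2 ≤ (Real.exp 1 * nm g) ^ 2 := pow_le_pow_left₀ hM0 hM 2
    _ = Real.exp 1 ^ 2 * nm g ^ 2 := by ring
    _ ≤ Real.exp 1 ^ 2 * (|R| * m2 g) := by gcongr
    _ = (Real.exp 1 ^ 2 * |R|) * m2 g := by ring
    _ ≤ Cn * m2 g := by gcongr
    _ ≤ _ := by gcongr

end minor

variable {k : Type} [NontriviallyNormedField k] [ProperSpace k]

/-- **One shell.** -/
theorem shell2 [MeasurableSpace k] [BorelSpace k] (cls : Cells k) (hs : SecStmt k) (ho : OpfStmt)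
    {Γ K : Type} [NormedAddCommGroup K] [InnerProductSpace ℂ K] [CompleteSpace K]
    (q : Γ → S4 k) (hud : UD q) (E P : C(YY k 3, ℂ) →⋆ₐ[ℂ] (K →L[ℂ] K))
    (L M : C(LL k, ℂ) →⋆ₐ[ℂ] (K →L[ℂ] K)) (hEL : H796.PL on E L) (hEM : H796.PL on E M)
    (hPM : H796.PL on P M) (R : ℝ) (A : Set (LL k)) (h : C(LL k, ℂ)) (f : C(YY k 3, ℂ))
    (hf : f ∈ TD k (Fin 4)) (hA : ∀ X ∈ closure A, ∀ X' ∈ tsupport h, opp2 X X') :
    ∃ T > 0, ∃ (C : ℝ), 0 ≤ C ∧ ∀ (s : ℕ) (S : Finset Γ),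
      (∀ γ ∈ S, NW2 R (q γ) ∧ Att2 T A (q γ) ∧ Real.exp s ≤ nm (q γ) ∧
        nm (q γ) ≤ Real.exp (s + 1)) →
      ∀ ξ : K, ∑ γ ∈ S, ‖L (act (q γ)⁻¹ h) (P (act (q γ)⁻¹ f) ξ)‖ ^ 2 ≤
        C * (1 + s) ^ 4 * ‖ξ‖ ^ 2 := by
  classical
  obtain ⟨φ, hφ, hGφ⟩ := hf
  -- measurable structures
  letI m1 : MeasurableSpace (ℙ k (Fin 4 → k)) := borel _
  haveI b1 : BorelSpace (ℙ k (Fin 4 → k)) := ⟨rfl⟩
  letI m1' : MeasurableSpace (YY k 3) := borel _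
  haveI b1' : BorelSpace (YY k 3) := ⟨rfl⟩
  letI m2 : MeasurableSpace (LL k) := borel _
  haveI b2 : BorelSpace (LL k) := ⟨rfl⟩
  letI m4 : MeasurableSpace (ℙ k (Fin 4 × Fin 4 → k)) := borel _
  haveI b4 : BorelSpace (ℙ k (Fin 4 × Fin 4 → k)) := ⟨rfl⟩
  -- sections
  obtain ⟨σ, hσm, hσn, hσ⟩ := hs (Fin 4)
  obtain ⟨τ, hτm, hτn, hτ⟩ := hs (Fin 4 × Fin 4)
  set s1 : YY k 3 → Fin 4 → k := fun x => σ x with hs1
  set p2 : LL k → Fin 4 × Fin 4 → k := fun y => τ (pl y) with hp2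
  have hs1m : Measurable s1 := hσm
  have hp2m : Measurable p2 := hτm.comp pl_cont.measurable
  have hs1x : ∀ x : YY k 3, ∃ h : s1 x ≠ 0, (cl (s1 x) h : YY k 3) = x := by
    intro x
    obtain ⟨h, e⟩ := hσ x
    exact ⟨h, e⟩
  have hp2y : ∀ y : LL k, ∃ h : p2 y ≠ 0, plk y.1 = pj k (Fin 4 × Fin 4) ⟨p2 y, h⟩ := by
    intro y
    obtain ⟨h, e⟩ := hτ (pl y)
    exact ⟨h, e.symm⟩
  -- geometry
  obtain ⟨T, hT, Cl, hCl, hloc⟩ := H315P.Opp.loc2 (isClosed_tsupport (h : LL k → ℂ)) hA R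
  set e1 : ℝ := Real.exp 1 with he1
  have he11 : 1 ≤ e1 := Real.one_le_exp zero_le_one
  have he10 : 0 < e1 := by linarith
  set Cn : ℝ := max 1 (e1 ^ 2 * |R|) with hCn
  have hCn1 : 1 ≤ Cn := le_max_left _ _
  have hCnR : e1 ^ 2 * |R| ≤ Cn := le_max_right _ _
  have hCn0 : 0 < Cn := by linarith
  have hCl0 : 0 < Cl := by linarith
  set C₁ : ℝ := 32 * e1 * Cn ^ 2 * Cl with hC₁
  have hCn2 : Cn ≤ Cn ^ 2 := by nlinarith
  have hCn21 : 1 ≤ Cn ^ 2 := by nlinarith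
  have hC₁n2 : 32 * Cn ^ 2 ≤ C₁ := by
    have h1 : 32 * Cn ^ 2 * 1 ≤ 32 * Cn ^ 2 * (e1 * Cl) :=
      mul_le_mul_of_nonneg_left (by nlinarith) (by positivity)
    rw [hC₁]; nlinarith
  have hC₁1 : 1 ≤ C₁ := by nlinarith
  obtain ⟨N, hN⟩ := H315P.Opp.shell2 hud (max e1 Cl)
  obtain ⟨CK, hCK0, hCK⟩ := kb (K := K) cls (α := Fin 2) (γ := Fin 4) (hφ K) C₁ hC₁1
  set Nc : ℝ := Real.sqrt (N * ‖h‖ ^ 2) with hNc
  have hNc0 : 0 ≤ Nc := Real.sqrt_nonneg _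
  refine ⟨T, hT, Fintype.card (Fin 2 ⊕ Fin 2 ≃ Fin 4) * (CK ^ 2 * 81 * Nc ^ 2), by positivity, ?_⟩
  intro s S hS ξ
  set Mx : ℝ := Real.exp (s + 1) with hMx
  have hMx0 : 0 < Mx := Real.exp_pos _
  have hMx1 : 1 ≤ Mx := Real.one_le_exp (by positivity)
  set r : ℝ := (Mx ^ 2)⁻¹ with hr
  have hr0 : 0 < r := by positivity
  have hr1 : r ≤ 1 := inv_le_one_of_one_le₀ (one_le_pow₀ hMx1)
  have hMxe : Mx = e1 * Real.exp s := by rw [hMx, Real.exp_add, mul_comm]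
  have hMn : ∀ γ ∈ S, Mx ≤ e1 * nm (q γ) := fun γ hγ => by
    rw [hMxe]; exact mul_le_mul_of_nonneg_left (hS γ hγ).2.2.1 he10.le
  -- normal forms
  have hnf : ∀ γ : Γ, ∃ (e : Fin 2 ⊕ Fin 2 ≃ Fin 4) (V : Fin 2 → Fin 2 → k) (c ϖ : k)
      (B : Matrix (Fin 4) (Fin 2 ⊕ Fin 2) k) (B' : Matrix (Fin 2 ⊕ Fin 2) (Fin 4) k), γ ∈ S →
      (∀ x : Fin 4 → k, (q γ).1.1 *ᵥ x = c • (B *ᵥ dv 1 ϖ (bv V (x ∘ e)))) ∧
      (∀ a b, ‖V a b‖ ≤ 1) ∧ B' * B = 1 ∧ (∀ a b, ‖B a b‖ ≤ 4 * Cn) ∧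
      (∀ a b, ‖B' a b‖ ≤ 4 * Cn) ∧ c ≠ 0 ∧ Mx ≤ 2 * Cn * ‖c‖ ∧ 1 ≤ ‖ϖ‖ * Mx ^ 2 ∧
      ‖ϖ‖ * Mx ^ 2 ≤ 4 * Cn ^ 2 := by
    intro γ
    by_cases hγ : γ ∈ S
    · obtain ⟨e, V, c, ϖ, B, B', h1, h2, h3, h4, h5, h6, h7, h8, h9, h10, h11⟩ :=
        H589.PN.nf2 hCn1 (sp_of (q γ)) (fun i j => (entry_le (q γ) i j).trans (hS γ hγ).2.2.2)
          (exists_minor (q γ) (hS γ hγ).1 (hMn γ hγ) hMx0.le hCnR)
      exact ⟨e, V, c, ϖ, B, B', fun _ => ⟨h1, h2, h3, h4, h5, h6, h8, h10, h11⟩⟩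
    · exact ⟨finSumFinEquiv, 0, 0, 0, 0, 0, fun h => absurd h hγ⟩
  choose e V c ϖ B B' hnf using hnf
  -- contraction on the lines of the support
  have hcon : ∀ γ ∈ S, ∀ ν : LL k, q γ • ν ∈ tsupport h → ∀ z ∈ ν.1.1,
      nm (q γ) * ‖(q γ).1.1 *ᵥ z‖ ≤ Cl * ‖z‖ := fun γ hγ ν hν z hz =>
    hloc (q γ) (hS γ hγ).1 (hS γ hγ).2.1 ν hν z hz
  -- capacity
  have hcapS : Cap S (fun γ => L (act (q γ)⁻¹ h)) Nc := by
    intro v
    rw [hNc, Real.sq_sqrt (by positivity)]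
    refine H218.sum_sq_le L S (fun γ => act (q γ)⁻¹ h) (by positivity) (fun x => ?_) v
    have hc : (S.filter fun γ => q γ • x ∈ tsupport h).card ≤ N := by
      refine hN _ (fun γ hγ γ' hγ' => ?_) x fun γ hγ z hz => ?_
      · obtain ⟨h1, h2⟩ := Finset.mem_filter.1 hγ
        obtain ⟨h1', h2'⟩ := Finset.mem_filter.1 hγ'
        calc nm (q γ) ≤ Mx := (hS γ h1).2.2.2
          _ ≤ e1 * nm (q γ') := hMn γ' h1'
          _ ≤ _ := mul_le_mul_of_nonneg_right (le_max_left _ _) (nm_nonneg _)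
      · obtain ⟨h1, h2⟩ := Finset.mem_filter.1 hγ
        exact (hcon γ h1 x h2 z hz).trans
          (mul_le_mul_of_nonneg_right (le_max_right _ _) (norm_nonneg _))
    have hsum : ∑ γ ∈ S, ‖(act (q γ)⁻¹ h) x‖ ^ 2 ≤
        ∑ γ ∈ S.filter (fun γ => q γ • x ∈ tsupport h), ‖h‖ ^ 2 := by
      rw [Finset.sum_filter]
      refine Finset.sum_le_sum fun γ hγ => ?_
      have e1 : (act (q γ)⁻¹ h) x = h (q γ • x) := by
        change h (((q γ)⁻¹)⁻¹ • x) = _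
        rw [_root_.inv_inv]
      rw [e1]
      split_ifs with hc
      · exact pow_le_pow_left₀ (norm_nonneg _) (h.norm_coe_le_norm _) 2
      · rw [image_eq_zero_of_notMem_tsupport hc, norm_zero, zero_pow two_ne_zero]
    refine hsum.trans ?_
    rw [Finset.sum_const, nsmul_eq_mul]
    have h5 : ((S.filter fun γ => q γ • x ∈ tsupport h).card : ℝ) ≤ N := by
      exact_mod_cast hc
    gcongr
  -- the operators
  have hI1 : IsClosed {x : YY k 3 × LL k | on x.1 x.2} := on_closed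
  have hCI : ∀ (x : C(YY k 3, ℂ) →⋆ₐ[ℂ] (K →L[ℂ] K)) (y : C(LL k, ℂ) →⋆ₐ[ℂ] (K →L[ℂ] K)),
      H796.PL on x y → CI on (H466.pv x) (H466.pv y) := fun x y h =>
    H604.pv_CI x y hI1 (fun f g => h.com f g) fun f g hfg => h.inc f g hfg
  have hPvX : ∀ x : C(YY k 3, ℂ) →⋆ₐ[ℂ] (K →L[ℂ] K), Pv (H466.pv x) := fun x => H604.pv_Pv x
  have hPvY : ∀ y : C(LL k, ℂ) →⋆ₐ[ℂ] (K →L[ℂ] K), Pv (H466.pv y) := fun y => H604.pv_Pv y
  have hon : ∀ (x : YY k 3) (y : LL k), on x y → s1 x ∈ y.1.1 := by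
    intro x y hxy
    obtain ⟨h', e'⟩ := hs1x x
    rw [← e'] at hxy
    exact (on_mk h').1 hxy
  -- one class of pivots
  have key : ∀ e₀ : Fin 2 ⊕ Fin 2 ≃ Fin 4,
      ∑ γ ∈ S.filter (fun γ => e γ = e₀), ‖L (act (q γ)⁻¹ h) (P (act (q γ)⁻¹ f) ξ)‖ ^ 2 ≤
        (CK * (1 + Real.log (1 / r)) ^ 2 * Nc) ^ 2 * ‖ξ‖ ^ 2 := by
    intro e₀
    set S₀ := S.filter (fun γ => e γ = e₀) with hS₀
    have hSS : ∀ γ ∈ S₀, γ ∈ S ∧ e γ = e₀ := fun γ hγ => Finset.mem_filter.1 hγ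
    have hnf' : ∀ γ ∈ S₀, (∀ x : Fin 4 → k,
        (q γ).1.1 *ᵥ x = c γ • (B γ *ᵥ dv 1 (ϖ γ) (bv (V γ) (x ∘ e₀)))) := fun γ hγ x => by
      obtain ⟨h1, h2⟩ := hSS γ hγ
      have := (hnf γ h1).1 x
      rwa [h2] at this
    exact hCK (YY k 3) (LL k) (fun x => s1 x ∘ e₀) (fun y => pe e₀ (p2 y))
      (meas_comp hs1m _) (meas_comp hp2m _) (fun x => nrm_comp e₀ (hσn _))
      (fun y => nrm_comp (Equiv.prodCongr e₀ e₀) (hτn _))
      (fun y => by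
        obtain ⟨h, e⟩ := hp2y y
        exact pe_alt e₀ (rep_alt (hω := h) e))
      on
      (fun x y hxy => by
        obtain ⟨h, e⟩ := hp2y y
        exact pe_w3 e₀ ((mem_iff (hω := h) e).1 (hon x y hxy)))
      (H466.pv E) (H466.pv P) (H466.pv M) (hPvX E) (hPvX P) (hPvY M) (hCI E M hEM)
      (hCI P M hPM) Γ S₀ V ϖ B B' r hr0 hr1
      (fun γ hγ a b => ((hnf γ (hSS γ hγ).1).2.1 a b).trans hC₁1)
      (fun γ hγ => by
        obtain ⟨-, -, -, -, -, -, -, h8, h9⟩ := hnf γ (hSS γ hγ).1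
        have hM2 : 0 < Mx ^ 2 := by positivity
        have h10 : r ≤ ‖ϖ γ‖ := by
          rw [hr, inv_le_iff_one_le_mul₀ hM2]; exact h8
        have h11 : ‖ϖ γ‖ ≤ 4 * Cn ^ 2 * r := by
          rw [hr, ← div_eq_mul_inv, le_div_iff₀ hM2]; exact h9
        constructor
        · exact h10.trans (le_mul_of_one_le_left (norm_nonneg _) hC₁1)
        · refine h11.trans (mul_le_mul_of_nonneg_right ?_ hr0.le)
          nlinarith)
      (fun γ hγ => (hnf γ (hSS γ hγ).1).2.2.1)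
      (fun γ hγ a b => ((hnf γ (hSS γ hγ).1).2.2.2.1 a b).trans (by nlinarith))
      (fun γ hγ a b => ((hnf γ (hSS γ hγ).1).2.2.2.2.1 a b).trans (by nlinarith))
      (fun γ => L (act (q γ)⁻¹ h)) (fun γ => P (act (q γ)⁻¹ f))
      (fun γ x => (act (q γ)⁻¹ f) x) Nc hNc0
      (fun γ _ D _ => H466.pv_commute E (fun g => (hEL.com g _).symm) D)
      (fun γ hγ D hD hfar => by
        obtain ⟨hγS, hγe⟩ := hSS γ hγ
        obtain ⟨-, h2, h3, h4, h5, h6, h7, h8, h9⟩ := hnf γ hγS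
        have hn0 : 0 < nm (q γ) := lt_of_lt_of_le (Real.exp_pos _) (hS γ hγS).2.2.1
        -- no incidence
        have hno : ∀ x ∈ D, ∀ ν ∈ tsupport (act (q γ)⁻¹ h), ¬ on x ν := by
          intro x hx ν hν hxν
          have hν' : q γ • ν ∈ tsupport h := tsupport_act' (q γ) h hν
          have k1 := hcon γ hγS ν hν' (s1 x) (hon x ν hxν)
          have k2 : nm (q γ) * ‖(q γ).1.1 *ᵥ s1 x‖ ≤ Cl :=
            k1.trans (mul_le_of_le_one_right hCl0.le (hσn _).1)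
          obtain ⟨a, ha⟩ := hfar x hx
          set w := dv 1 (ϖ γ) (bv (V γ) (s1 x ∘ e₀)) with hw
          have k3 : ‖fa (V γ) (s1 x ∘ e₀) a‖ ≤ ‖w‖ := by
            have e : w (Sum.inl a) = fa (V γ) (s1 x ∘ e₀) a := by
              rw [hw, dv_inl, bv_inl, one_mul]
            rw [← e]
            exact norm_le_pi_norm w _
          have k4 : ‖w‖ ≤ 16 * Cn * ‖B γ *ᵥ w‖ := by
            have e : w = B' γ *ᵥ (B γ *ᵥ w) := by
              rw [Matrix.mulVec_mulVec, h3, Matrix.one_mulVec]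
            have := PW.mulVec_le (by positivity : (0 : ℝ) ≤ 4 * Cn) h5 (B γ *ᵥ w)
            rw [← e] at this
            refine this.trans (le_of_eq ?_)
            rw [Fintype.card_fin]; push_cast; ring
          have k5 : ‖(q γ).1.1 *ᵥ s1 x‖ = ‖c γ‖ * ‖B γ *ᵥ w‖ := by
            rw [hnf' γ hγ, norm_smul]
          have k6 : Mx ^ 2 * ‖w‖ ≤ C₁ := by
            have l1 : 0 ≤ ‖B γ *ᵥ w‖ := norm_nonneg _
            calc Mx ^ 2 * ‖w‖ ≤ Mx ^ 2 * (16 * Cn * ‖B γ *ᵥ w‖) := by gcongr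
              _ = 16 * Cn * (Mx * (Mx * ‖B γ *ᵥ w‖)) := by ring
              _ ≤ 16 * Cn * ((e1 * nm (q γ)) * ((2 * Cn * ‖c γ‖) * ‖B γ *ᵥ w‖)) := by
                  have := hMn γ hγS
                  gcongr
              _ = 32 * e1 * Cn ^ 2 * (nm (q γ) * (‖c γ‖ * ‖B γ *ᵥ w‖)) := by ring
              _ ≤ 32 * e1 * Cn ^ 2 * Cl := by rw [← k5]; gcongr
              _ = C₁ := by rw [hC₁]
          have k7 : ‖w‖ ≤ C₁ * r := by
            rw [hr, ← div_eq_mul_inv, le_div_iff₀ (by positivity), mul_comm]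
            exact k6
          exact absurd ha (not_lt.2 (k3.trans k7))
        have hNm : MeasurableSet (tsupport (act (q γ)⁻¹ h)) := (isClosed_tsupport _).measurableSet
        have l1 : L (act (q γ)⁻¹ h) * H466.pv L (tsupport (act (q γ)⁻¹ h)) =
            L (act (q γ)⁻¹ h) := H466.phi_pv_supp L hNm
              fun x hx => image_eq_zero_of_notMem_tsupport hx
        have l2 := (hCI E L hEL).inc D _ hD hNm hno
        have l3 := (hCI E L hEL).comm D _ hD hNm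
        rw [← l1, mul_assoc, ← l3, l2, mul_zero])
      (fun v => (Finset.sum_le_sum_of_subset_of_nonneg (Finset.filter_subset _ _)
        fun _ _ _ => sq_nonneg _).trans (hcapS v))
      (fun γ hγ x => by
        obtain ⟨hγS, hγe⟩ := hSS γ hγ
        obtain ⟨h', e'⟩ := hs1x x
        change f (((q γ)⁻¹)⁻¹ • x) = _
        rw [_root_.inv_inv]
        have hne : (q γ).1.1 *ᵥ s1 x ≠ 0 := by
          intro h0
          have h1 : (q γ)⁻¹.1.1 *ᵥ ((q γ).1.1 *ᵥ s1 x) = s1 x := by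
            rw [Matrix.mulVec_mulVec]
            have : (q γ)⁻¹.1.1 * (q γ).1.1 = 1 :=
              congrArg (fun g : S4 k => g.1.1) (inv_mul_cancel (q γ))
            rw [this, Matrix.one_mulVec]
          rw [h0, Matrix.mulVec_zero] at h1
          exact h' h1.symm
        have e2 : q γ • x = (Projectivization.mk k ((q γ).1.1 *ᵥ s1 x) hne : YY k 3) := by
          have e3 : q γ • (Projectivization.mk k (s1 x) h' : YY k 3) =
              Projectivization.mk k ((q γ).1.1 *ᵥ s1 x) hne := by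
            rw [SP4.smul_YY, Projectivization.smul_mk]
            rfl
          exact (congrArg (fun y : YY k 3 => q γ • y) e'.symm).trans e3
        rw [e2]
        have e3 := hGφ ((q γ).1.1 *ᵥ s1 x) hne
        refine e3.trans ?_
        rw [hnf' γ hγ, (hφ K).1 _ _ (hnf γ hγS).2.2.2.2.2.1])
      (fun γ _ => (ContinuousMap.continuous _).measurable)
      (fun γ _ => ho K _ P _)
      (fun γ _ D _ => H466.pv_commute M (fun g => hPM.com _ g) D) ξ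
  have hsum : ∑ γ ∈ S, ‖L (act (q γ)⁻¹ h) (P (act (q γ)⁻¹ f) ξ)‖ ^ 2 =
      ∑ e₀ : Fin 2 ⊕ Fin 2 ≃ Fin 4, ∑ γ ∈ S.filter (fun γ => e γ = e₀),
        ‖L (act (q γ)⁻¹ h) (P (act (q γ)⁻¹ f) ξ)‖ ^ 2 :=
    (Finset.sum_fiberwise S e _).symm
  rw [hsum]
  refine (Finset.sum_le_sum fun e₀ _ => key e₀).trans ?_
  rw [Finset.sum_const, nsmul_eq_mul, Finset.card_univ]
  have hlog : 1 + Real.log (1 / r) ≤ 3 * (1 + (s : ℝ)) := by
    have : Real.log (1 / r) = 2 * (s + 1) := by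
      rw [hr, one_div, _root_.inv_inv, Real.log_pow, hMx, Real.log_exp]; push_cast; ring
    rw [this]
    have : (0 : ℝ) ≤ s := Nat.cast_nonneg s
    linarith
  have hlog0 : 0 ≤ 1 + Real.log (1 / r) := by
    have : 0 ≤ Real.log (1 / r) := Real.log_nonneg (by rw [le_div_iff₀ hr0]; linarith)
    linarith
  have h5 : (CK * (1 + Real.log (1 / r)) ^ 2 * Nc) ^ 2 ≤ CK ^ 2 * 81 * Nc ^ 2 * (1 + (s : ℝ)) ^ 4 := by
    calc (CK * (1 + Real.log (1 / r)) ^ 2 * Nc) ^ 2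
        ≤ (CK * (3 * (1 + (s : ℝ))) ^ 2 * Nc) ^ 2 := by gcongr
      _ = _ := by ring
  calc (Fintype.card (Fin 2 ⊕ Fin 2 ≃ Fin 4) : ℝ) *
        ((CK * (1 + Real.log (1 / r)) ^ 2 * Nc) ^ 2 * ‖ξ‖ ^ 2)
      ≤ (Fintype.card (Fin 2 ⊕ Fin 2 ≃ Fin 4) : ℝ) *
        ((CK ^ 2 * 81 * Nc ^ 2 * (1 + (s : ℝ)) ^ 4) * ‖ξ‖ ^ 2) := by gcongr
    _ = _ := by ring

/-- **COUNT_2** -/
theorem count2 [MeasurableSpace k] [BorelSpace k] (cls : Cells k) (hs : SecStmt k) (ho : OpfStmt)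
    {Γ K : Type} [NormedAddCommGroup K] [InnerProductSpace ℂ K] [CompleteSpace K]
    (q : Γ → S4 k) (hud : UD q) (E P : C(YY k 3, ℂ) →⋆ₐ[ℂ] (K →L[ℂ] K))
    (L M : C(LL k, ℂ) →⋆ₐ[ℂ] (K →L[ℂ] K)) (hEL : H796.PL on E L) (hEM : H796.PL on E M)
    (hPM : H796.PL on P M) (R : ℝ) (A : Set (LL k)) (h : C(LL k, ℂ)) (f : C(YY k 3, ℂ))
    (hf : f ∈ TD k (Fin 4)) (hA : ∀ X ∈ closure A, ∀ X' ∈ tsupport h, opp2 X X') :
    ∃ T > 0, ∃ (C : ℝ) (d : ℕ), ∀ J : ℝ, 0 ≤ J → ∀ S : Finset Γ,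
      (∀ γ ∈ S, γ ∈ NA2 q R T A ∧ Real.log (nm (q γ)) ≤ J) →
      ∀ ξ : K, ∑ γ ∈ S, ‖L (act (q γ)⁻¹ h) (P (act (q γ)⁻¹ f) ξ)‖ ^ 2 ≤
        C * (1 + J) ^ d * ‖ξ‖ ^ 2 := by
  classical
  obtain ⟨T, hT, C, hC, hsh⟩ := shell2 cls hs ho q hud E P L M hEL hEM hPM R A h f hf hA
  obtain ⟨M₀, hM₀⟩ := ball_card hud (Real.exp (0 : ℕ))
  obtain ⟨C', hC', hsum⟩ := H914.sum_shells (fun γ => (q γ).1)
    (fun γ (ξ : K) => ‖L (act (q γ)⁻¹ h) (P (act (q γ)⁻¹ f) ξ)‖ ^ 2)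
    (fun γ ξ => sq_nonneg _) (fun γ => NW2 R (q γ) ∧ Att2 T A (q γ))
    0 M₀ (B := (‖h‖ * ‖f‖) ^ 2) (sq_nonneg _)
    (by
      intro γ _ ξ
      rw [← mul_pow]
      refine pow_le_pow_left₀ (norm_nonneg _) ?_ 2
      have h1 : ‖L (act (q γ)⁻¹ h)‖ ≤ ‖h‖ :=
        (NonUnitalStarAlgHom.norm_apply_le L _).trans (norm_act_le _ _)
      have h2 : ‖P (act (q γ)⁻¹ f)‖ ≤ ‖f‖ :=
        (NonUnitalStarAlgHom.norm_apply_le P _).trans (norm_act_le _ _)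
      calc _ ≤ ‖L (act (q γ)⁻¹ h)‖ * ‖P (act (q γ)⁻¹ f) ξ‖ :=
            ContinuousLinearMap.le_opNorm _ _
        _ ≤ ‖h‖ * (‖f‖ * ‖ξ‖) := by
            refine mul_le_mul h1 ?_ (norm_nonneg _) (norm_nonneg _)
            exact (ContinuousLinearMap.le_opNorm _ _).trans
              (mul_le_mul_of_nonneg_right h2 (norm_nonneg _))
        _ = _ := by ring)
    (fun S hS => hM₀ S fun γ hγ => (hS γ hγ).2)
    hC 4
    (by
      intro s i j S hs' hS ξ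
      exact hsh s S (fun γ hγ => by
        obtain ⟨⟨h1, h2⟩, h4, h5, h6⟩ := hS γ hγ
        exact ⟨h1, h2, h4, h5⟩) ξ)
  refine ⟨T, hT, C', 4 + 1, fun J hJ S hS ξ => ?_⟩
  exact hsum J hJ S (fun γ hγ => ⟨(hS γ hγ).1, (hS γ hγ).2⟩) ξ

end Vale.Agent.P092.H464.PC
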